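import Crest.Agent.R121.H7.Flow

/-! The type II₁ core. -/

set_option autoImplicit false
set_option linter.unusedSectionVars false

open scoped InnerProductSpace
open Complex (I)

namespace Crest.Agent.R121.H7
open Crest.Agent.R124

variable {H : Type*} [NormedAddCommGroup H] [InnerProductSpace ℂ H] [CompleteSpace H]
variable {P : VonNeumannAlgebra H}

theorem scale_sum {y : ℕ → ℝ} (h0 : ∀ j, 0 < y j) (h1 : ∀ j, 2 * y (j + 1) ≤ y j) {s : ℝ}
    (hs : 0 ≤ s) (n : ℕ) :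
    ∑ j ∈ Finset.range n, 2 * y j * s / (y j ^ 2 + s ^ 2) ≤ 8 * (s / (2 * y n + s)) := by
  induction n with
  | zero => have := h0 0; simp only [Finset.range_zero, Finset.sum_empty]; positivity
  | succ n ih =>
    have a0 := h0 n
    have a1 := h0 (n + 1)
    have a2 : s / (y n + s) ≤ s / (2 * y (n + 1) + s) := by gcongr; exact h1 n
    have a3 : 2 * y n * s / (y n ^ 2 + s ^ 2) ≤ 8 * (s / (y n + s) - s / (2 * y n + s)) := by
      rw [div_sub_div _ _ (by positivity) (by positivity), ← mul_div_assoc,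
        div_le_div_iff₀ (by positivity) (by positivity)]
      have : 0 ≤ y n * s * (2 * (y n - s) ^ 2 + (y n) ^ 2 + 4 * s ^ 2 + (y n - s) ^ 2 + y n ^ 2) := by
        positivity
      nlinarith [mul_nonneg (mul_nonneg a0.le hs) (sq_nonneg (y n - s)),
        mul_nonneg (mul_nonneg a0.le hs) (sq_nonneg s), mul_nonneg (mul_nonneg a0.le hs) (sq_nonneg (y n))]
    rw [Finset.sum_range_succ]
    linarith

/-- Smoothed sign function at scale `y`. -/
noncomputable def hs (x : Op H) (y : ℝ) : Op H := (y : ℂ) • (res x y + res x (-y))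

theorem res_cfc {x : Op H} (hx : star x = x) {y : ℝ} (hy : y ≠ 0) :
    (∀ s ∈ spectrum ℂ x, (y : ℂ) * I - s ≠ 0) ∧ res x y = cfc (fun s : ℂ => ((y : ℂ) * I - s)⁻¹) x := by
  have hx' : IsSelfAdjoint x := hx
  have h : ∀ s ∈ spectrum ℂ x, (y : ℂ) * I - s ≠ 0 := fun s hs h => by
    have h1 := hx'.im_eq_zero_of_mem_spectrum hs
    rw [← sub_eq_zero.1 h] at h1
    exact hy (by simpa using h1)
  refine ⟨h, ?_⟩
  rw [cfc_inv _ _ h, cfc_sub _ _, cfc_const _ _, cfc_id' ℂ x, Algebra.algebraMap_eq_smul_one, res]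

theorem norm_sum_hs {x : Op H} (hx : star x = x) {y : ℕ → ℝ} (h0 : ∀ j, 0 < y j)
    (h1 : ∀ j, 2 * y (j + 1) ≤ y j) (n : ℕ) : ‖∑ j ∈ Finset.range n, hs x (y j)‖ ≤ 8 := by
  have hx' : IsSelfAdjoint x := hx
  have c : ∀ {y : ℝ}, y ≠ 0 → ContinuousOn (fun s : ℂ => ((y : ℂ) * I - s)⁻¹) (spectrum ℂ x) :=
    fun hy => ContinuousOn.inv₀ (by fun_prop) (res_cfc hx hy).1
  have c2 : ∀ j, ContinuousOn (fun s : ℂ => ((y j : ℂ) * I - s)⁻¹ + (((-y j : ℝ) : ℂ) * I - s)⁻¹)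
      (spectrum ℂ x) := fun j => (c (h0 j).ne').add (c (neg_ne_zero.2 (h0 j).ne'))
  have e : ∀ j, hs x (y j) = cfc (fun s : ℂ => (y j : ℂ) *
      (((y j : ℂ) * I - s)⁻¹ + (((-y j : ℝ) : ℂ) * I - s)⁻¹)) x := fun j => by
    rw [cfc_const_mul _ _ _ (c2 j), cfc_add _ _ _ (c (h0 j).ne') (c (neg_ne_zero.2 (h0 j).ne')),
      ← (res_cfc hx (h0 j).ne').2, ← (res_cfc hx (neg_ne_zero.2 (h0 j).ne')).2, hs]
  simp only [e]
  rw [← cfc_sum (fun j (s : ℂ) => (y j : ℂ) * (((y j : ℂ) * I - s)⁻¹ +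
    (((-y j : ℝ) : ℂ) * I - s)⁻¹)) _ _ fun j _ => continuousOn_const.mul (c2 j)]
  refine norm_cfc_le (by norm_num) fun s hs => ?_
  obtain ⟨r, rfl⟩ : ∃ r : ℝ, s = r :=
    ⟨s.re, Complex.ext rfl (by simpa using hx'.im_eq_zero_of_mem_spectrum hs)⟩
  have a1 := scale_sum h0 h1 (abs_nonneg r) n
  have a2 : |r| / (2 * y n + |r|) ≤ 1 :=
    div_le_one_of_le₀ (by linarith [h0 n]) (by have := h0 n; positivity)
  rw [Finset.sum_apply]
  refine (norm_sum_le _ _).trans (le_trans (le_of_eq (Finset.sum_congr rfl fun j _ => ?_))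
    (a1.trans (by linarith)))
  have b0 := h0 j
  have b1 := (res_cfc hx b0.ne').1 _ hs
  have b2 := (res_cfc hx (neg_ne_zero.2 b0.ne')).1 _ hs
  have b3 : ((y j : ℂ) ^ 2 + r ^ 2) ≠ 0 := by
    exact_mod_cast (by positivity : (y j ^ 2 + r ^ 2) ≠ 0)
  have b4 : (y j : ℂ) * (((y j : ℂ) * I - r)⁻¹ + (((-y j : ℝ) : ℂ) * I - r)⁻¹) =
      ((-(2 * y j * r / (y j ^ 2 + r ^ 2)) : ℝ) : ℂ) := by
    push_cast at b2 ⊢
    rw [inv_add_inv b1 b2, show ((y j : ℂ) * I - r) * (-(y j : ℂ) * I - r) = (y j : ℂ) ^ 2 + r ^ 2 by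
      linear_combination (-(y j : ℂ) ^ 2) * Complex.I_mul_I]
    ring
  rw [b4, Complex.norm_real, Real.norm_eq_abs, abs_neg, abs_div, abs_mul, abs_mul,
    abs_of_pos b0, abs_of_pos (a := y j ^ 2 + r ^ 2) (by positivity), sq_abs, abs_two]

theorem qf_nonneg (ξ : H) {a : Op H} (ha : 0 ≤ a) : 0 ≤ qf ξ a := Tc.vs_nonneg ξ ha

theorem qf_star (ξ : H) (a : Op H) : qf ξ (star a) = qf ξ a := by
  have h1 := qf_star_mul ξ a 1
  have h2 := qf_star_mul ξ 1 a
  rw [mul_one] at h1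
  rw [star_one, one_mul] at h2
  rw [h1, h2]
  exact inner_re_symm (𝕜 := ℂ) _ _

theorem qf_tau_le (T : Tr P) (ξ : H) {r c : Op H} (hr : r ∈ P) (hc : c ∈ P) {γ : ℝ}
    (hγ : ‖c‖ ≤ γ) : qf ξ (T.τ (star r * c * r)) ≤ γ * qf ξ (T.τ (star r * r)) := by
  have h1 := (Dix.le_norm (IsSelfAdjoint.add_star_self c) (r := γ + γ)
    ((norm_add_le _ _).trans (add_le_add hγ (nst hγ)))).2
  have m : ∀ {c}, c ∈ P → star r * c * r ∈ P := fun hc => mul_mem (mul_mem (star_mem hr) hc) hr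
  have h2 := Tc.pos_mono (fun a => qf_nonneg ξ) (T.mono (m (add_mem hc (star_mem hc)))
    (m (rsmul_mem _ (one_mem P))) (star_left_conjugate_le_conjugate h1 r))
  have h3 : qf ξ (T.τ (star r * star c * r)) = qf ξ (T.τ (star r * c * r)) := by
    rw [← qf_star, ← T.map_star _ (m (star_mem hc))]
    simp only [star_mul, star_star, mul_assoc]
  rw [mul_add, add_mul, map_add, map_add, h3, mul_smul_comm, smul_mul_assoc, mul_one,
    T.map_rsmul, map_smul, smul_eq_mul] at h2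
  linarith

theorem norm_le_of_qf {a : Op H} (ha : 0 ≤ a) {c : ℝ} (hc : 0 ≤ c)
    (h : ∀ ξ, qf ξ a ≤ c * ‖ξ‖ ^ 2) : ‖a‖ ≤ c := by
  obtain ⟨r, rfl⟩ := CStarAlgebra.nonneg_iff_eq_star_mul_self.1 ha
  have : ‖r‖ ≤ √c := r.opNorm_le_bound (by positivity) fun ξ => by
    refine le_of_sq_le_sq_nn (by positivity) ?_
    rw [mul_pow, Real.sq_sqrt hc, ← qf_sq]; exact h ξ
  simpa [Real.mul_self_sqrt hc] using nm2 (nst this) this

theorem yt_neg (b t : ℝ) : yt (-b) t = -yt b t := by simp only [yt, mu]; ring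

theorem mu_neg (b : ℝ) : mu (-b) = -mu b := by simp only [mu]; ring

theorem yt_near {t : ℝ} (ht : 0 ≤ t) : t ≤ yt (1 + t) 1 ∧ yt (1 + t) 1 ≤ 2 * t := by
  have e : yt (1 + t) 1 = t * ((1 + t) * (2 + t)) / (1 + (1 + t) ^ 2) := by
    simp only [yt, mu]; field_simp; ring
  rw [e, le_div_iff₀ (by positivity), div_le_iff₀ (by positivity)]
  constructor <;> nlinarith [mul_nonneg ht ht, mul_nonneg ht (mul_nonneg ht ht)]

/-- Imaginary part of the resolvent. -/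
noncomputable def kk (x : Op H) (y : ℝ) : Op H := (I / 2) • (res x y - res x (-y))

theorem kk_eq {x : Op H} (hx : star x = x) {y : ℝ} (hy : y ≠ 0) :
    kk x y = y • (res x y * star (res x y)) := by
  rw [kk, ← star_res hx hy, res_sub_star hx hy, smul_smul, ← Complex.coe_smul]
  congr 1
  linear_combination (-(y : ℂ)) * Complex.I_mul_I

theorem kk_mul (g : Op H →ₗ[ℂ] Op H) (x : Op H) {y y' : ℝ} (h0 : 0 < y') (h : 2 * y' ≤ y) :
    kk x y' * g (hs x y) = (y / (2 * (y' - y))) • (Aw g x y y' + Aw g x (-y) (-y')) +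
      (y / (2 * (y' + y))) • (Aw g x y (-y') + Aw g x (-y) y') := by
  have h1 : ((y' : ℂ) - y) ≠ 0 := by exact_mod_cast (by linarith : y' - y ≠ 0)
  have h2 : ((y' : ℂ) + y) ≠ 0 := by exact_mod_cast (by linarith : y' + y ≠ 0)
  simp only [kk, hs, Aw, map_smul, map_add, smul_mul_assoc, mul_smul_comm, sub_mul, mul_add,
    ← Complex.coe_smul]
  push_cast
  match_scalars <;> field_simp <;> ring

theorem Aw_sym {σ : Op H} (hs : star σ = σ) (h2 : σ * σ = 1) (g : Op H →ₗ[ℂ] Op H) {a a' : ℝ}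
    (ha : a ≠ 0) (ha' : a' ≠ 0) :
    Aw g σ a (-a') + Aw g σ (-a) a' = (-(2 * (a + a') / ((1 + a ^ 2) * (1 + a' ^ 2)))) •
      (a • (g σ - σ * g 1) + (a' - a) • g σ) := by
  have h : (1 + (a : ℂ) ^ 2) ≠ 0 := by exact_mod_cast (by positivity : (1 + a ^ 2) ≠ 0)
  have h' : (1 + (a' : ℂ) ^ 2) ≠ 0 := by exact_mod_cast (by positivity : (1 + a' ^ 2) ≠ 0)
  simp only [Aw, res_sym hs h2 ha, res_sym hs h2 ha', res_sym hs h2 (neg_ne_zero.2 ha),
    res_sym hs h2 (neg_ne_zero.2 ha'), mu, map_sub, map_smul, sub_mul, mul_sub, smul_mul_assoc,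
    mul_smul_comm, one_mul, ← Complex.coe_smul, neg_sq]
  push_cast
  match_scalars <;> field_simp <;> ring_nf <;> simp only [Complex.I_sq] <;> ring

theorem norm_sym {σ : Op H} (hs : star σ = σ) (h2 : σ * σ = 1) : ‖σ‖ ≤ 1 :=
  Gr.norm_isom (by rw [hs, h2])

theorem scale_est {T : Tr P} {σ : Op H} (hσ : σ ∈ Sym0 P T) {g : Op H →ₗ[ℂ] Op H} (hg : Bd P g)
    (μ : Op H →₀ ℝ) {a a' y y' δ : ℝ} (ha : 1 ≤ a) (ha2 : a ≤ 2) (ha' : 1 ≤ a') (ha2' : a' ≤ 2)
    (hδ : |a' - a| ≤ δ) (h0 : 0 < y') (h : 2 * y' ≤ y)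
    (h1 : ‖Ex μ (fun x => Aw g x y y') - Aw g σ a a'‖ ≤ δ)
    (h2 : ‖Ex μ (fun x => Aw g x (-y) (-y')) - Aw g σ (-a) (-a')‖ ≤ δ)
    (h3 : ‖Ex μ (fun x => Aw g x y (-y')) - Aw g σ a (-a')‖ ≤ δ)
    (h4 : ‖Ex μ (fun x => Aw g x (-y) y') - Aw g σ (-a) a'‖ ≤ δ) :
    ∃ w : ℝ, 1 / 20 ≤ w ∧ ‖Ex μ (fun x => kk x y' * g (hs x y)) + w • (g σ - σ * g 1)‖ ≤ 8 * δ := by
  have δ0 : 0 ≤ δ := (abs_nonneg _).trans hδ
  have b : ∀ a a' : ℝ, 1 ≤ |a| → 1 ≤ |a'| → |a' - a| ≤ δ → ‖Aw g σ a a'‖ ≤ δ * (1 * 1) := by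
    intro a a' ha ha' h
    have a0 : a ≠ 0 := abs_pos.1 (by linarith)
    have a0' : a' ≠ 0 := abs_pos.1 (by linarith)
    refine ncs (by simpa [← Complex.ofReal_sub] using h) (nm2 ((norm_res hσ.2.1 a0').trans
      (inv_le_one_of_one_le₀ ha')) ((hg.le (res_mem hσ.1 hσ.2.1 a0)).trans
        ((norm_res hσ.2.1 a0).trans (inv_le_one_of_one_le₀ ha))))
  have b1 := b a a' (ha.trans (le_abs_self _)) (ha'.trans (le_abs_self _)) hδ
  have b2 := b (-a) (-a') (by rw [abs_neg]; exact ha.trans (le_abs_self _))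
    (by rw [abs_neg]; exact ha'.trans (le_abs_self _)) (by rwa [neg_sub_neg, abs_sub_comm])
  have e1 := Aw_sym hσ.2.1 hσ.2.2.1 g (a := a) (a' := a') (by linarith) (by linarith)
  set q := 2 * (a + a') / ((1 + a ^ 2) * (1 + a' ^ 2)) with hq
  set c1 := y / (2 * (y' - y)) with hc1
  set c2 := y / (2 * (y' + y)) with hc2
  have y0 : 0 < y := by linarith
  have q0 : 4 / 25 ≤ q := by
    rw [hq, div_le_div_iff₀ (by norm_num) (by positivity)]
    have : (1 + a ^ 2) * (1 + a' ^ 2) ≤ 5 * 5 := by gcongr <;> nlinarith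
    linarith
  have q1 : q ≤ 2 := by
    rw [hq, div_le_iff₀ (by positivity)]
    nlinarith [sq_nonneg (a - 1), sq_nonneg (a' - 1), mul_nonneg (sq_nonneg a) (sq_nonneg a')]
  have c10 : |c1| ≤ 1 := by
    rw [hc1, abs_div, abs_of_pos y0, abs_of_neg (by linarith), div_le_one (by linarith)]; linarith
  have c20 : 1 / 3 ≤ c2 := by rw [hc2, div_le_div_iff₀ (by norm_num) (by positivity)]; linarith
  have c21 : c2 ≤ 1 := by rw [hc2, div_le_one (by positivity)]; linarith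
  refine ⟨c2 * q * a, by nlinarith [mul_le_mul c20 q0 (by norm_num) (by linarith)], ?_⟩
  simp only [kk_mul g _ h0 h, Ex_add, Ex_rsmul]
  have e2 : c1 • (Ex μ (fun x => Aw g x y y') + Ex μ fun x => Aw g x (-y) (-y')) +
      c2 • (Ex μ (fun x => Aw g x y (-y')) + Ex μ fun x => Aw g x (-y) y') +
      (c2 * q * a) • (g σ - σ * g 1) =
      c1 • ((Ex μ (fun x => Aw g x y y') - Aw g σ a a') +
        (Ex μ (fun x => Aw g x (-y) (-y')) - Aw g σ (-a) (-a')) + Aw g σ a a' + Aw g σ (-a) (-a')) +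
      c2 • ((Ex μ (fun x => Aw g x y (-y')) - Aw g σ a (-a')) +
        (Ex μ (fun x => Aw g x (-y) y') - Aw g σ (-a) a') + (-q * (a' - a)) • g σ) := by
    linear_combination (norm := module) c2 • e1
  rw [e2]
  have b3 : ‖(-q * (a' - a)) • g σ‖ ≤ 2 * δ * 1 := by
    rw [norm_smul, Real.norm_eq_abs, abs_mul, abs_neg, abs_of_nonneg (by linarith)]
    have := (hg.le hσ.1).trans (norm_sym hσ.2.1 hσ.2.2.1)
    gcongr
  have b4 := norm_add₄_le.trans (add_le_add (add_le_add (add_le_add h1 h2) b1) b2)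
  have b5 := norm_add₃_le.trans (add_le_add (add_le_add h3 h4) b3)
  refine (norm_add_le _ _).trans ?_
  rw [norm_smul, norm_smul, Real.norm_eq_abs, Real.norm_of_nonneg (by linarith)]
  have := mul_le_mul c10 b4 (norm_nonneg _) zero_le_one
  have := mul_le_mul c21 b5 (norm_nonneg _) zero_le_one
  linarith

theorem core1 (hP : NoAbel P) (T : CTr P) {σ : Op H} (hσ : σ ∈ Sym0 P T.toTr) {ν : Op H →₀ ℝ}
    {η : ℝ} (hν : Ref P ν η ν η) (hσν : σ ∈ Alg ν) {ε : ℝ} (hε : 0 < ε) :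
    ∃ ν' η', Ref P ν η ν' η' ∧ ∀ g, Bd P g → Harm P ν' η' g →
      ‖T.τ (star (g σ - σ * g 1) * (g σ - σ * g 1))‖ ≤ ε := by
  classical
  obtain ⟨J, hJ⟩ := exists_nat_gt (180 / ε)
  have J0 : (0 : ℝ) < J := lt_trans (by positivity) hJ
  set δ : ℝ := 1 / (16 * (J + 1)) with hδ
  have δ0 : 0 < δ := by positivity
  have δ1 : 16 * (J + 1) * δ = 1 := by rw [hδ]; field_simp
  have δ2 : δ ≤ 1 := by nlinarith
  let t : ℕ → ℝ := fun j => δ / 4 ^ j
  have t0 : ∀ j, 0 < t j := fun j => by positivity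
  have t1 : ∀ j, t j ≤ δ := fun j => div_le_self δ0.le (one_le_pow₀ (by norm_num))
  let y : ℕ → ℝ := fun j => yt (1 + t j) 1
  have y0 : ∀ j, 0 < y j := fun j => (t0 j).trans_le (yt_near (t0 j).le).1
  have y1 : ∀ j, 2 * y (j + 1) ≤ y j := fun j => by
    have h1 := (yt_near (t0 j).le).1
    have h2 := (yt_near (t0 (j + 1)).le).2
    have h3 : 4 * t (j + 1) = t j := by simp only [t, pow_succ]; field_simp
    simp only [y]; linarith
  have y2 : ∀ j < J, 2 * y J ≤ y j := fun j hj =>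
    (mul_le_mul_of_nonneg_left (antitone_nat_of_succ_le (f := y)
      (fun n => by linarith [y0 (n + 1), y1 n]) hj) zero_le_two).trans (y1 j)
  let B := (Finset.range (J + 1)).image (fun j => 1 + t j) ∪
    (Finset.range (J + 1)).image fun j => -(1 + t j)
  have B1 : ∀ j ≤ J, 1 + t j ∈ B := fun j hj => Finset.mem_union_left _
    (Finset.mem_image_of_mem _ (Finset.mem_range.2 (by omega)))
  have B2 : ∀ j ≤ J, -(1 + t j) ∈ B := fun j hj => Finset.mem_union_right _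
    (Finset.mem_image_of_mem (fun j => -(1 + t j)) (Finset.mem_range.2 (by omega)))
  obtain ⟨ν', η', μ, h1, h2⟩ := flow hP T hσ B (fun b hb => by
    rcases Finset.mem_union.1 hb with hb | hb <;> obtain ⟨j, -, rfl⟩ := Finset.mem_image.1 hb
    · exact lt_of_lt_of_le (by linarith [t0 j]) (le_abs_self _)
    · rw [abs_neg]; exact lt_of_lt_of_le (by linarith [t0 j]) (le_abs_self _)) hν hσν δ0
  refine ⟨ν', η', h1, fun g hg hh => ?_⟩
  have hx : ∀ x ∈ μ.support, x ∈ P ∧ star x = x := fun x hx =>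
    ⟨Alg.memP h1.law (h2.alg x hx).1, (h2.alg x hx).2⟩
  set D := g σ - σ * g 1 with hD
  have hDP : D ∈ P := sub_mem (hg.mem _ hσ.1) (mul_mem hσ.1 (hg.mem _ (one_mem P)))
  have nσ := norm_sym hσ.2.1 hσ.2.2.1
  have nD : ‖D‖ ≤ 1 + 1 * 1 := (norm_sub_le _ _).trans (add_le_add ((hg.le hσ.1).trans nσ)
    (nm2 nσ ((hg.le (one_mem P)).trans norm_one_le')))
  have key : ∀ j ∈ Finset.range J, ∃ w : ℝ, 1 / 20 ≤ w ∧
      ‖Ex μ (fun x => kk x (y J) * g (hs x (y j))) + w • D‖ ≤ 8 * δ := fun j hj => by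
    have hj := Finset.mem_range.1 hj
    refine scale_est hσ hg μ (a := 1 + t j) (a' := 1 + t J) (by linarith [t0 j])
      (by linarith [t1 j]) (by linarith [t0 J]) (by linarith [t1 J])
      (abs_le.2 ⟨by linarith [t0 J, t1 j], by linarith [t0 j, t1 J]⟩) (y0 J) (y2 j hj)
      (h2.a _ (B1 j hj.le) _ (B1 J le_rfl) g hg hh) ?_ ?_ ?_
    · simpa only [yt_neg] using h2.a _ (B2 j hj.le) _ (B2 J le_rfl) g hg hh
    · simpa only [yt_neg] using h2.a _ (B1 j hj.le) _ (B2 J le_rfl) g hg hh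
    · simpa only [yt_neg] using h2.a _ (B2 j hj.le) _ (B1 J le_rfl) g hg hh
  choose! w w1 w2 using key
  have hW : J / 20 ≤ ∑ j ∈ Finset.range J, w j := by
    simpa [div_eq_mul_inv] using Finset.sum_le_sum w1
  set G : Op H → Op H := fun x => g (∑ j ∈ Finset.range J, hs x (y j)) with hG
  have hR : ∀ x ∈ μ.support, ∀ {z : ℝ}, z ≠ 0 → res x z ∈ P := fun x hx' z hz =>
    res_mem (hx x hx').1 (hx x hx').2 hz
  have hh : ∀ x ∈ μ.support, ∑ j ∈ Finset.range J, hs x (y j) ∈ P := fun x hx' =>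
    sum_mem fun j _ => csmul_mem _ (add_mem (hR x hx' (y0 j).ne')
      (hR x hx' (neg_ne_zero.2 (y0 j).ne')))
  have hk : ∀ x ∈ μ.support, kk x (y J) ∈ P := fun x hx' => csmul_mem _
    (sub_mem (hR x hx' (y0 J).ne') (hR x hx' (neg_ne_zero.2 (y0 J).ne')))
  have hE : Ex μ (fun x => kk x (y J) * G x) ∈ P :=
    Ex_memP fun x hx' => mul_mem (hk x hx') (hg.mem _ (hh x hx'))
  have a1 : ‖Ex μ (fun x => kk x (y J) * G x) + (∑ j ∈ Finset.range J, w j) • D‖ ≤ J * (8 * δ) := by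
    simp only [hG, map_sum, Finset.mul_sum, Ex_sum, Finset.sum_smul, ← Finset.sum_add_distrib]
    simpa using (norm_sum_le _ _).trans (Finset.sum_le_sum w2)
  have hZ : ∀ b ∈ B, yt b 1 ≠ 0 → ‖Ex μ fun x => Zr T.toTr x (yt b 1) (mu b)‖ ≤ δ * 1 :=
    fun b hb h0 => by
      simpa using h2.law.cen_mul (b := fun _ => 1) δ0.le zero_le_one
        (fun x hx' => Zr_cen T.toTr (hx x hx').1 (hx x hx').2 h0 (mu b)) (h2.z b hb)
        fun _ _ => norm_one_le'
  have a2 : ‖Ex μ fun x => T.τ (kk x (y J))‖ ≤ δ + 1 / 2 := by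
    have z1 := hZ _ (B1 J le_rfl) (y0 J).ne'
    have z2 := hZ _ (B2 J le_rfl) (by rw [yt_neg]; exact neg_ne_zero.2 (y0 J).ne')
    rw [yt_neg, mu_neg] at z2
    have e : ∀ x, T.τ (kk x (y J)) = (I / 2) • (Zr T.toTr x (y J) (mu (1 + t J)) -
        Zr T.toTr x (-y J) (-mu (1 + t J))) + (-mu (1 + t J)) • 1 := fun x => by
      simp only [kk, Zr, map_smul, map_sub, ← Complex.coe_smul]
      push_cast
      match_scalars <;> ring_nf
      simp only [Complex.I_sq]; ring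
    simp only [e, Ex_add, Ex_csmul, Ex_sub, h2.law.const]
    have z3 := ncs (c := I / 2) (α := 1 / 2) (by simp) ((norm_sub_le _ _).trans (add_le_add z1 z2))
    have z4 : ‖(-mu (1 + t J)) • (1 : Op H)‖ ≤ 1 / 2 * 1 := by
      rw [norm_smul, Real.norm_eq_abs, abs_neg]
      exact mul_le_mul (abs_mu _) norm_one_le' (norm_nonneg _) (by norm_num)
    refine (norm_add_le _ _).trans ((add_le_add z3 z4).trans (by linarith))
  have hpos := T.nonneg _ (mul_mem (star_mem hDP) hDP) (star_mul_self_nonneg D)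
  refine norm_le_of_qf hpos hε.le fun ξ => ?_
  have a3 := qf_le_norm ξ ((T.norm_le _ (mul_mem (star_mem hDP)
    (add_mem hE (rsmul_mem _ hDP)))).trans (nm2 (nst nD) a1))
  have a4 := qf_le_norm ξ a2
  have a5 : -qf ξ (T.τ (star D * Ex μ fun x => kk x (y J) * G x)) ≤
      16 * qf ξ (Ex μ fun x => T.τ (kk x (y J))) := by
    rw [mul_Ex, Ex_lin, ← Ex_map, ← Ex_map, ← Ex_neg, ← Ex_const_mul]
    refine h2.law.mono fun x hx' => ?_
    have r1 := hR x hx' (y0 J).ne'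
    have r2 : G x ∈ P := hg.mem _ (hh x hx')
    have r3 := qf_tau_le T.toTr ξ r1 (neg_mem (mul_mem r2 (star_mem hDP))) (γ := 8 * (1 + 1 * 1))
      (by rw [norm_neg]; exact nm2 ((hg.le (hh x hx')).trans (norm_sum_hs (hx x hx').2 y0 y1 J))
            (nst nD))
    rw [kk_eq (hx x hx').2 (y0 J).ne', smul_mul_assoc, mul_smul_comm, T.map_rsmul, T.map_rsmul,
      map_smul, map_smul, mul_assoc, ← mul_assoc (star D),
      T.comm _ (mul_mem (star_mem hDP) r1) _ (mul_mem (star_mem r1) r2),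
      T.comm _ r1 _ (star_mem r1), smul_eq_mul, smul_eq_mul]
    simp only [mul_neg, neg_mul, map_neg, mul_assoc] at r3 ⊢
    nlinarith [y0 J]
  rw [mul_add, mul_smul_comm, map_add, T.map_rsmul, map_add, map_smul, smul_eq_mul] at a3
  have a6 := mul_le_mul_of_nonneg_right hW (qf_nonneg ξ hpos)
  have a7 : J / 20 * qf ξ (T.τ (star D * D)) ≤ 9 * ‖ξ‖ ^ 2 := by
    have : 9 * ‖ξ‖ ^ 2 = (8 + 16 * (J + 1) * δ) * ‖ξ‖ ^ 2 := by rw [δ1]; ring
    linarith
  rw [div_lt_iff₀ hε] at hJ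
  refine le_of_mul_le_mul_left ?_ J0
  nlinarith [mul_le_mul_of_nonneg_right hJ.le (sq_nonneg ‖ξ‖)]

theorem core (hP : NoAbel P) (T : CTr P) : Core P T.toTr := by
  classical
  intro S ε hε hS
  let ν₀ : Op H →₀ ℝ := av fun σ : Option S => Finsupp.single (σ.elim 1 Subtype.val) 1
  have hu : ∀ σ : Option S, Uni P (σ.elim 1 Subtype.val) ∧
      star (σ.elim (1 : Op H) Subtype.val) = σ.elim 1 Subtype.val := by
    rintro (_ | σ)
    · exact ⟨Uni.one, star_one _⟩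
    · obtain ⟨h1, h2, h3, -⟩ := hS _ σ.2
      exact ⟨⟨h1, by rw [← h3]; exact congrArg (· * σ.1) h2, by
        rw [← h3]; exact congrArg (σ.1 * ·) h2⟩, h2⟩
  have h0 : Ref P ν₀ 1 ν₀ 1 := ⟨ulaw_av fun σ => ulaw_single (hu σ).1, fun f => by
    simp only [ν₀, Ex_av_law, Ex_single, (hu _).2], subset_rfl, one_pos, fun _ _ h => h⟩
  have h1 : ∀ σ ∈ S, σ ∈ Alg ν₀ := fun σ hσ => Alg.letter (Finsupp.mem_support_iff.2 (ne_of_gt (by
    have : ν₀ σ = av fun k : Option S => Finsupp.single (k.elim 1 Subtype.val) (1 : ℝ) σ :=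
      (av_map (Finsupp.lapply σ) _).symm
    rw [this, av, smul_eq_mul]
    refine mul_pos (by positivity) (Finset.sum_pos' (fun k _ => (isLaw_single _).nonneg σ)
      ⟨some ⟨σ, hσ⟩, Finset.mem_univ _, by simp⟩))))
  have key : ∀ S' ⊆ S, ∃ ν η, Ref P ν₀ 1 ν η ∧ ∀ g, Bd P g → Harm P ν η g →
      ∀ σ ∈ S', ‖T.τ (star (g σ - σ * g 1) * (g σ - σ * g 1))‖ ≤ ε := by
    intro S' hS'
    induction S' using Finset.induction_on with
    | empty => exact ⟨ν₀, 1, h0, by simp⟩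
    | insert σ S' _ ih =>
      obtain ⟨ν, η, a1, a2⟩ := ih ((Finset.subset_insert _ _).trans hS')
      have hσ := hS' (Finset.mem_insert_self _ _)
      obtain ⟨ν', η', b1, b2⟩ := core1 hP T (hS σ hσ) a1.self (Alg.mono a1.supp (h1 σ hσ)) hε
      refine ⟨ν', η', a1.trans b1, fun g hg hh s hs => ?_⟩
      rcases Finset.mem_insert.1 hs with rfl | hs
      · exact b2 g hg hh
      · exact a2 g hg (b1.harm g hg hh) s hs
  obtain ⟨ν, η, a1, a2⟩ := key S subset_rfl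
  exact ⟨ν, η, a1.law, a1.pos, a2⟩

end Crest.Agent.R121.H7
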