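import Crest.Agent.R121.H7.Pt

/-! The flow of resolvents along characteristics. -/

set_option autoImplicit false
set_option linter.unusedSectionVars false

open scoped InnerProductSpace
open Complex (I)

namespace Crest.Agent.R121.H7
open Crest.Agent.R124

variable {H : Type*} [NormedAddCommGroup H] [InnerProductSpace ℂ H] [CompleteSpace H]
variable {P : VonNeumannAlgebra H}

/-- Speed of a characteristic. -/
noncomputable def mu (b : ℝ) : ℝ := -(b / (1 + b ^ 2))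

/-- Characteristic. -/
noncomputable def yt (b t : ℝ) : ℝ := b + 2 * t * mu b

theorem yt_bd {b t : ℝ} (hb : 1 < |b|) (h0 : 0 ≤ t) (h1 : t ≤ 1) :
    0 < |yt b 1| ∧ |yt b 1| ≤ |yt b t| ∧ |yt b t| ≤ |b| := by
  have e : ∀ t, yt b t = b * (1 - t * (2 / (1 + b ^ 2))) := fun t => by
    simp only [yt, mu]; ring
  have h2 : 1 < b ^ 2 := by nlinarith [sq_abs b]
  have h3 : 2 / (1 + b ^ 2) < 1 := by rw [div_lt_one (by positivity)]; linarith
  have h4 : 0 < 2 / (1 + b ^ 2) := by positivity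
  have h5 : t * (2 / (1 + b ^ 2)) ≤ 1 * (2 / (1 + b ^ 2)) := by gcongr
  have h6 : 0 ≤ t * (2 / (1 + b ^ 2)) := by positivity
  rw [e, e, abs_mul, abs_mul, abs_of_pos (a := 1 - 1 * _) (by linarith),
    abs_of_pos (a := 1 - t * _) (by linarith)]
  refine ⟨mul_pos (by linarith) (by linarith), by gcongr, by nlinarith⟩

theorem abs_mu (b : ℝ) : |mu b| ≤ 1 / 2 := by
  rw [mu, abs_neg, abs_div, abs_of_pos (a := 1 + b ^ 2) (by positivity),
    div_le_iff₀ (by positivity)]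
  nlinarith [sq_abs b, sq_nonneg (|b| - 1)]

theorem sp_yt {Y l b t : ℝ} (hb : 1 < |b|) (hY : |b| ≤ Y) (hY' : |yt b 1|⁻¹ ≤ Y) (hl : 0 < l)
    (h0 : 0 ≤ t) (h1 : t + l ^ 2 ≤ 1) : Sp Y l (yt b t) (yt b (t + l ^ 2)) (mu b) := by
  obtain ⟨a1, a2, a3⟩ := yt_bd hb h0 (by nlinarith)
  obtain ⟨-, b2, b3⟩ := yt_bd hb (t := t + l ^ 2) (by positivity) h1
  exact ⟨by linarith, hl, by nlinarith, abs_pos.1 (by linarith), abs_pos.1 (by linarith),
    (inv_anti₀ a1 a2).trans hY', (inv_anti₀ a1 b2).trans hY', by linarith, by linarith, abs_mu b,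
    by simp only [yt]; ring⟩

theorem res_sym {σ : Op H} (hs : star σ = σ) (h2 : σ * σ = 1) {b : ℝ} (hb : b ≠ 0) :
    res σ b = (mu b * I : ℂ) • 1 - ((1 + b ^ 2 : ℝ) : ℂ)⁻¹ • σ := by
  refine res_eq hs hb ?_
  have h : (1 + (b : ℂ) ^ 2) ≠ 0 := by exact_mod_cast (by positivity : (1 + b ^ 2) ≠ 0)
  simp only [mul_sub, sub_mul, smul_mul_assoc, mul_smul_comm, one_mul, mul_one, h2, mu]
  push_cast
  match_scalars
  · field_simp; ring_nf; rw [Complex.I_sq]; ring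
  · field_simp; ring

/-- Refinement of a law together with a tolerance. -/
structure Ref (P : VonNeumannAlgebra H) (ν : Op H →₀ ℝ) (η : ℝ) (ν' : Op H →₀ ℝ) (η' : ℝ) :
    Prop where
  law : ULaw P ν'
  sym : Sym ν'
  supp : ν.support ⊆ ν'.support
  pos : 0 < η'
  harm : ∀ g, Bd P g → Harm P ν' η' g → Harm P ν η g

theorem Ref.trans {ν ν' ν'' : Op H →₀ ℝ} {η η' η'' : ℝ} (h : Ref P ν η ν' η')
    (h' : Ref P ν' η' ν'' η'') : Ref P ν η ν'' η'' :=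
  ⟨h'.law, h'.sym, h.supp.trans h'.supp, h'.pos, fun g hg hh => h.harm g hg (h'.harm g hg hh)⟩

theorem Ref.self {ν ν' : Op H →₀ ℝ} {η η' : ℝ} (h : Ref P ν η ν' η') : Ref P ν' η' ν' η' :=
  ⟨h.law, h.sym, subset_rfl, h.pos, fun _ _ h => h⟩

theorem step' (hP : NoAbel P) (T : CTr P) {ν : Op H →₀ ℝ} {η : ℝ} (h : Ref P ν η ν η)
    (F : Finset (Op H)) (hF : ∀ a ∈ F, a ∈ Alg ν) {ρ : ℝ} (hρ : 0 < ρ) :
    ∃ ν' η' lam, Ref P ν η ν' η' ∧ Good P T.toTr F ρ ν' lam η' := by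
  obtain ⟨ν', lam, η', h1, h2, h3⟩ := step hP T h.law h.sym F hF hρ (half_pos h.pos)
  refine ⟨ν', min η' (η / 2), lam, ⟨h1.law, h1.sym, h1.supp, lt_min h2 (half_pos h.pos),
    fun g hg hh => (h1.harm g _ hg hh).mono (by linarith [min_le_right η' (η / 2)])⟩,
    h3.law, h3.sym, h3.alg, h3.dix, h3.small, fun y hy w hw g x ξ ht =>
      h3.rule y hy w hw g x ξ (ht.mono (min_le_left _ _))⟩

/-- The invariant of the flow. -/
structure Inv (P : VonNeumannAlgebra H) (T : Tr P) (σ : Op H) (B : Finset ℝ) (t α β : ℝ)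
    (ν : Op H →₀ ℝ) (η : ℝ) (μ : Op H →₀ ℝ) : Prop where
  law : IsLaw μ
  alg : ∀ x ∈ μ.support, x ∈ Alg ν ∧ star x = x
  z : ∀ b ∈ B, ∀ ξ, Ex μ (fun x => ‖Zr T x (yt b t) (mu b) ξ‖ ^ 2) ≤ α * ‖ξ‖ ^ 2
  a : ∀ b ∈ B, ∀ b' ∈ B, ∀ g, Bd P g → Harm P ν η g →
    ‖Ex μ (fun x => Aw g x (yt b t) (yt b' t)) - Aw g σ b b'‖ ≤ β

theorem Inv.mono {T : Tr P} {σ : Op H} {B : Finset ℝ} {t α β α' β' η : ℝ} {ν μ : Op H →₀ ℝ}
    (h : Inv P T σ B t α β ν η μ) (hα : α ≤ α') (hβ : β ≤ β') : Inv P T σ B t α' β' ν η μ :=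
  ⟨h.law, h.alg, fun b hb ξ => (h.z b hb ξ).trans (by gcongr),
    fun b hb b' hb' g hg hh => (h.a b hb b' hb' g hg hh).trans hβ⟩

theorem inv_zero {T : Tr P} {σ : Op H} (hσ : σ ∈ Sym0 P T) {B : Finset ℝ} (hB : ∀ b ∈ B, 1 < |b|)
    {ν : Op H →₀ ℝ} (hν : σ ∈ Alg ν) (η : ℝ) : Inv P T σ B 0 0 0 ν η (Finsupp.single σ 1) := by
  refine ⟨isLaw_single _, fun x hx => ?_, fun b hb ξ => ?_, fun b _ b' _ g _ _ => ?_⟩
  · rw [Finset.mem_singleton.1 (Finsupp.support_single_subset hx)]; exact ⟨hν, hσ.2.1⟩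
  · have : b ≠ 0 := abs_pos.1 (by linarith [hB b hb])
    simp [Ex_single, yt, Zr, res_sym hσ.2.1 hσ.2.2.1 this, T.one, hσ.2.2.2]
  · simp [Ex_single, yt]

theorem inv_step (hP : NoAbel P) (T : CTr P) {σ : Op H} {B : Finset ℝ} {t α β η Y l a : ℝ}
    {ν μ : Op H →₀ ℝ} (hν : Ref P ν η ν η) (h : Inv P T.toTr σ B t α β ν η μ) (hl : 0 < l)
    (hS : ∀ b ∈ B, Sp Y l (yt b t) (yt b (t + l ^ 2)) (mu b)) (ha : 0 ≤ a) (hα : α ≤ a ^ 2) :
    ∃ ν' η' μ', Ref P ν η ν' η' ∧ Inv P T.toTr σ B (t + l ^ 2)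
      ((1 + 6 * Y ^ 2 * l ^ 2) * α + 70000 * Y ^ 8 * l ^ 3)
      (β + (140000 * Y ^ 9 * l ^ 3 + 2 * l ^ 2 * (8 * Y ^ 4 * a))) ν' η' μ' := by
  classical
  obtain ⟨ν', η', lam, h1, hG⟩ := step' hP T hν
    ((μ.support ×ˢ B).image fun p => res p.1 (yt p.2 t)) (fun r hr => by
      obtain ⟨p, hp, rfl⟩ := Finset.mem_image.1 hr
      obtain ⟨p1, p2⟩ := Finset.mem_product.1 hp
      exact Alg.res (h.alg _ p1).1 (h.alg _ p1).2 (hS _ p2).y0) hl
  have hF : ∀ x ∈ μ.support, ∀ b ∈ B, res x (yt b t) ∈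
      (μ.support ×ˢ B).image fun p => res p.1 (yt p.2 t) := fun x hx b hb =>
    Finset.mem_image.2 ⟨(x, b), Finset.mem_product.2 ⟨hx, hb⟩, rfl⟩
  have hx : ∀ x ∈ μ.support, x ∈ P ∧ star x = x := fun x hx =>
    ⟨Alg.memP hν.law (h.alg x hx).1, (h.alg x hx).2⟩
  refine ⟨ν', η', Ex μ fun x => Ex lam fun u => av fun j => Finsupp.single (x + l • lt u j) 1, h1,
    h.law.bind fun _ _ => hG.law.toIsLaw.bind fun _ _ => isLaw_av fun _ => isLaw_single _,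
    fun w hw => ?_, fun b hb ξ => ?_, fun b hb b' hb' g hg hh => ?_⟩
  · obtain ⟨x, hx, hw⟩ := mem_support_Ex hw
    obtain ⟨u, hu, hw⟩ := mem_support_Ex hw
    obtain ⟨j, hw⟩ := mem_support_av hw
    rw [Finset.mem_singleton.1 (Finsupp.support_single_subset hw)]
    refine ⟨add_mem (Alg.mono h1.supp (h.alg x hx).1) ?_, ?_⟩
    · rw [← Complex.coe_smul]; exact (Alg ν').smul_mem (lt_mem (hG.alg u hu) j) _
    · rw [star_add, (h.alg x hx).2, star_smul, star_trivial, lt_star]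
  · simp only [Ex_bind, Ex_av_law, Ex_single]
    refine (h.law.mono fun x hx' => stepZ (hS b hb) hG (hx x hx').1 (hx x hx').2
      (hF x hx' b hb) ξ).trans ?_
    rw [Ex_add, Ex_const_mul, h.law.const, add_mul (_ * α), mul_assoc _ α]
    have := h.z b hb ξ
    gcongr
  · simp only [Ex_bind, Ex_av_law, Ex_single]
    have a1 := h.law.norm_le fun x hx' => stepA (hS b hb) (hS b' hb') hG (hx x hx').1 (hx x hx').2
      (hF x hx' b hb) (hF x hx' b' hb') hg hh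
    have a2 := h.a b hb b' hb' g hg (h1.harm g hg hh)
    have a3 := nrs (show 0 ≤ 2 * l ^ 2 by positivity) (norm_Nw h.law (x := fun x => x) hx (hS b hb)
      (hS b' hb') T.toTr hg ha (fun ξ => (h.z b hb ξ).trans (by gcongr))
      fun ξ => (h.z b' hb' ξ).trans (by gcongr))
    rw [Ex_sub, Ex_sub, Ex_rsmul] at a1
    have := norm_add₃_le.trans (add_le_add (add_le_add a2 a1) a3)
    rw [add_assoc β] at this
    refine le_trans (le_of_eq ?_) this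
    congr 1; abel

theorem flow (hP : NoAbel P) (T : CTr P) {σ : Op H} (hσ : σ ∈ Sym0 P T.toTr) (B : Finset ℝ)
    (hB : ∀ b ∈ B, 1 < |b|) {ν : Op H →₀ ℝ} {η : ℝ} (hν : Ref P ν η ν η) (hσν : σ ∈ Alg ν) {δ : ℝ}
    (hδ : 0 < δ) : ∃ ν' η' μ, Ref P ν η ν' η' ∧ Inv P T.toTr σ B 1 (δ ^ 2) δ ν' η' μ := by
  obtain ⟨Y, hY1, hY⟩ : ∃ Y : ℝ, 1 ≤ Y ∧ ∀ b ∈ B, |b| ≤ Y ∧ |yt b 1|⁻¹ ≤ Y := by
    refine ⟨1 + ∑ b ∈ B, (|b| + |yt b 1|⁻¹), le_add_of_nonneg_right (by positivity),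
      fun b hb => ?_⟩
    have := Finset.single_le_sum (f := fun b => |b| + |yt b 1|⁻¹) (fun _ _ => by positivity) hb
    have h1 : 0 ≤ |yt b 1|⁻¹ := by positivity
    constructor <;> linarith [abs_nonneg b]
  set a := δ / (32 * Y ^ 4) with ha
  have a0 : 0 < a := by positivity
  have aY : 32 * Y ^ 4 * a = δ := by rw [ha]; field_simp
  set c := 70000 * Y ^ 8 * Real.exp (6 * Y ^ 2) with hc
  set r := min (a ^ 2 / c) (δ / (280000 * Y ^ 9)) with hr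
  have r0 : 0 < r := lt_min (by positivity) (by positivity)
  obtain ⟨K, hK⟩ := exists_nat_gt (1 / r ^ 2)
  have K0 : (0 : ℝ) < K := lt_trans (by positivity) hK
  set l := √(1 / K) with hl
  have l0 : 0 < l := Real.sqrt_pos.2 (by positivity)
  have Kl : K * l ^ 2 = 1 := by rw [hl, Real.sq_sqrt (by positivity)]; field_simp
  have lr : l ≤ r := by
    rw [hl, Real.sqrt_le_left r0.le, div_le_iff₀ K0]
    rw [div_lt_iff₀ (by positivity)] at hK
    linarith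
  have l1 : c * l ≤ a ^ 2 := by
    have := lr.trans (min_le_left _ _)
    rwa [le_div_iff₀ (by positivity), mul_comm] at this
  have l2 : 280000 * Y ^ 9 * l ≤ δ := by
    have := lr.trans (min_le_right _ _)
    rwa [le_div_iff₀ (by positivity), mul_comm] at this
  have hα : ∀ k : ℕ, k ≤ K → k * (70000 * Y ^ 8 * l ^ 3) * (1 + 6 * Y ^ 2 * l ^ 2) ^ k ≤ a ^ 2 :=
    fun k hk => by
      have hk' : (k : ℝ) ≤ K := by exact_mod_cast hk
      have h6 : (1 + 6 * Y ^ 2 * l ^ 2) ^ k ≤ Real.exp (6 * Y ^ 2) := by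
        calc _ ≤ (Real.exp (6 * Y ^ 2 * l ^ 2)) ^ k := pow_le_pow_left₀ (by positivity)
                (by linarith [Real.add_one_le_exp (6 * Y ^ 2 * l ^ 2)]) k
          _ = Real.exp (k * (6 * Y ^ 2 * l ^ 2)) := by rw [← Real.exp_nat_mul]
          _ ≤ Real.exp (K * (6 * Y ^ 2 * l ^ 2)) := by gcongr
          _ = _ := by congr 1; linear_combination (6 * Y ^ 2) * Kl
      calc _ ≤ K * (70000 * Y ^ 8 * l ^ 3) * Real.exp (6 * Y ^ 2) := by gcongr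
        _ = c * l := by rw [hc]; linear_combination (70000 * Y ^ 8 * Real.exp (6 * Y ^ 2) * l) * Kl
        _ ≤ _ := l1
  have key : ∀ k : ℕ, k ≤ K → ∃ ν' η' μ, Ref P ν η ν' η' ∧ Inv P T.toTr σ B (k * l ^ 2)
      (k * (70000 * Y ^ 8 * l ^ 3) * (1 + 6 * Y ^ 2 * l ^ 2) ^ k)
      (k * (140000 * Y ^ 9 * l ^ 3 + 2 * l ^ 2 * (8 * Y ^ 4 * a))) ν' η' μ := by
    intro k hk
    induction k with
    | zero => exact ⟨ν, η, _, hν, by simpa using inv_zero hσ hB hσν η⟩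
    | succ k ih =>
      obtain ⟨ν', η', μ, h1, h2⟩ := ih (by omega)
      have hk' : (k : ℝ) + 1 ≤ K := by exact_mod_cast hk
      obtain ⟨ν'', η'', μ', h3, h4⟩ := inv_step hP T h1.self h2 l0 (fun b hb => sp_yt (hB b hb)
        (hY b hb).1 (hY b hb).2 l0 (by positivity) (by nlinarith)) a0.le (hα k (by omega))
      refine ⟨ν'', η'', μ', h1.trans h3, ?_⟩
      push_cast
      rw [add_mul _ 1 (l ^ 2), one_mul]
      refine h4.mono ?_ (le_of_eq (by ring))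
      have h5 : 1 ≤ (1 + 6 * Y ^ 2 * l ^ 2) ^ (k + 1) :=
        one_le_pow₀ (le_add_of_nonneg_right (by positivity))
      have h6 := le_mul_of_one_le_right (show 0 ≤ 70000 * Y ^ 8 * l ^ 3 by positivity) h5
      rw [pow_succ _ k] at h6 ⊢
      linarith
  obtain ⟨ν', η', μ, h1, h2⟩ := key K le_rfl
  rw [Kl] at h2
  refine ⟨ν', η', μ, h1, h2.mono ((hα K le_rfl).trans ?_) ?_⟩
  · have : 1 ≤ Y ^ 4 := one_le_pow₀ hY1
    have : a ≤ δ := by nlinarith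
    gcongr
  · have : K * (140000 * Y ^ 9 * l ^ 3 + 2 * l ^ 2 * (8 * Y ^ 4 * a)) =
        140000 * Y ^ 9 * l + 16 * Y ^ 4 * a := by
      linear_combination (140000 * Y ^ 9 * l + 16 * Y ^ 4 * a) * Kl
    linarith

end Crest.Agent.R121.H7
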