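import Crest.Agent.R121.H7.Step

/-! One step of the flow: expansions at a fixed point. -/

set_option autoImplicit false
set_option linter.unusedSectionVars false

open scoped InnerProductSpace
open Complex (I)

namespace Crest.Agent.R121.H7
open Crest.Agent.R124

variable {H : Type*} [NormedAddCommGroup H] [InnerProductSpace ℂ H] [CompleteSpace H]
variable {P : VonNeumannAlgebra H}

/-! ### Second moments -/

section Mom
variable {α : Type*} {μ : α →₀ ℝ}

theorem Ex_norm_sq (μ : α →₀ ℝ) (a : α → Op H) (x : H) :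
    Ex μ (fun ω => ‖a ω x‖ ^ 2) = (⟪x, Ex μ (fun ω => star (a ω) * a ω) x⟫_ℂ).re := by
  rw [Ex_apply, inner_Ex, re_Ex]
  congr 1
  funext ω
  rw [mul_apply_eq_comp, ContinuousLinearMap.star_eq_adjoint,
    ContinuousLinearMap.adjoint_inner_right, ← inner_self_eq_norm_sq (𝕜 := ℂ)]
  rfl

theorem IsLaw.norm_star_mul (hμ : IsLaw μ) {a b : α → Op H} {A B : ℝ} (hA : 0 ≤ A) (hB : 0 ≤ B)
    (ha : ∀ x, Ex μ (fun ω => ‖a ω x‖ ^ 2) ≤ A ^ 2 * ‖x‖ ^ 2)
    (hb : ∀ x, Ex μ (fun ω => ‖b ω x‖ ^ 2) ≤ B ^ 2 * ‖x‖ ^ 2) :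
    ‖Ex μ fun ω => star (a ω) * b ω‖ ≤ A * B := by
  refine opNorm_le_of_inner (by positivity) fun x y => ?_
  rw [Ex_apply, inner_Ex]
  calc _ ≤ Ex μ (fun ω => ‖a ω y‖ * ‖b ω x‖) := by
        refine (hμ.norm_le_ex _).trans (hμ.mono fun ω _ => ?_)
        rw [mul_apply_eq_comp, ContinuousLinearMap.star_eq_adjoint,
          ContinuousLinearMap.adjoint_inner_right]
        exact norm_inner_le_norm _ _
    _ ≤ √(Ex μ fun ω => ‖a ω y‖ ^ 2) * √(Ex μ fun ω => ‖b ω x‖ ^ 2) := hμ.mul_le_sqrt _ _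
    _ ≤ √(A ^ 2 * ‖y‖ ^ 2) * √(B ^ 2 * ‖x‖ ^ 2) := by gcongr; exacts [ha _, hb _]
    _ = _ := by
        rw [← mul_pow, ← mul_pow, Real.sqrt_sq (by positivity), Real.sqrt_sq (by positivity)]
        ring

theorem IsLaw.sq_le (hμ : IsLaw μ) {a : α → Op H} {A : ℝ} (h : ∀ ω ∈ μ.support, ‖a ω‖ ≤ A)
    (x : H) : Ex μ (fun ω => ‖a ω x‖ ^ 2) ≤ A ^ 2 * ‖x‖ ^ 2 :=
  hμ.le fun ω hω => by
    rw [← mul_pow]; exact pow_le_pow_left₀ (norm_nonneg _) (nap (h ω hω) le_rfl) 2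

theorem Cen.norm_star_apply {z : Op H} (hz : Cen P z) (x : H) : ‖star z x‖ = ‖z x‖ := by
  have h : ∀ a : Op H, ‖a x‖ ^ 2 = (⟪x, (star a * a) x⟫_ℂ).re := fun a => by
    rw [mul_apply_eq_comp, ContinuousLinearMap.star_eq_adjoint,
      ContinuousLinearMap.adjoint_inner_right, ← inner_self_eq_norm_sq (𝕜 := ℂ)]
    rfl
  have h1 := h (star z)
  rw [star_star, hz.2 _ (star_mem hz.1), ← h z] at h1
  exact (pow_left_inj₀ (norm_nonneg _) (norm_nonneg _) two_ne_zero).1 h1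

theorem IsLaw.cen_mul (hμ : IsLaw μ) {z b : α → Op H} {A B : ℝ} (hA : 0 ≤ A) (hB : 0 ≤ B)
    (hz : ∀ ω ∈ μ.support, Cen P (z ω))
    (ha : ∀ x, Ex μ (fun ω => ‖z ω x‖ ^ 2) ≤ A ^ 2 * ‖x‖ ^ 2)
    (hb : ∀ ω ∈ μ.support, ‖b ω‖ ≤ B) : ‖Ex μ fun ω => z ω * b ω‖ ≤ A * B := by
  have := hμ.norm_star_mul (a := fun ω => star (z ω)) hA hB (fun x => by
    rw [Ex_congr fun ω hω => by rw [Cen.norm_star_apply (hz ω hω)]]; exact ha x) (hμ.sq_le hb)
  simpa using this

/-- Little Grothendieck inequality for laws. -/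
theorem IsLaw.groth (hμ : IsLaw μ) {g : Op H →ₗ[ℂ] Op H} (hg : Bd P g) {y : α → Op H}
    (hy : ∀ ω ∈ μ.support, y ω ∈ P) {A : ℝ} (hA : 0 ≤ A)
    (h1 : ∀ x, Ex μ (fun ω => ‖y ω x‖ ^ 2) ≤ A ^ 2 * ‖x‖ ^ 2)
    (h2 : ∀ x, Ex μ (fun ω => ‖star (y ω) x‖ ^ 2) ≤ A ^ 2 * ‖x‖ ^ 2) (x : H) :
    Ex μ (fun ω => ‖g (y ω) x‖ ^ 2) ≤ (2 * A) ^ 2 * ‖x‖ ^ 2 := by
  have : IsClosed (P.toStarSubalgebra : Set (H →L[ℂ] H)) := isClosed_vn P
  let T : P.toStarSubalgebra →ₗ[ℂ] H :=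
    { toFun := fun b => g b x
      map_add' := fun b c => by simp
      map_smul' := fun c b => by simp }
  have hT : ∀ b : P.toStarSubalgebra, ‖T b‖ ≤ ‖x‖ * ‖b‖ := fun b => by
    rw [mul_comm]; exact nap (hg.le b.2) le_rfl
  let v : μ.support → P.toStarSubalgebra := fun ω => ⟨√(μ ω) • y ω, rsmul_mem _ (hy ω ω.2)⟩
  have h3 := little_gt T hT v
  have nc : ∀ b : P.toStarSubalgebra, ‖b‖ = ‖(b : H →L[ℂ] H)‖ := fun _ => rfl
  have sq : ∀ ω, √(μ ω) * √(μ ω) = μ ω := fun ω => Real.mul_self_sqrt (hμ.nonneg ω)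
  have e1 : ‖∑ ω, star (v ω) * v ω‖ ≤ A * A := by
    refine le_trans (le_of_eq ?_) (hμ.norm_star_mul hA hA h1 h1)
    rw [nc, Ex_def, ← Finset.sum_coe_sort μ.support]
    simp only [AddSubmonoidClass.coe_finsetSum, MulMemClass.coe_mul, StarMemClass.coe_star, v,
      star_smul, star_trivial, smul_mul_smul_comm, sq]
  have e2 : ‖∑ ω, v ω * star (v ω)‖ ≤ A * A := by
    refine le_trans (le_of_eq ?_) (hμ.norm_star_mul hA hA h2 h2)
    rw [nc, Ex_def, ← Finset.sum_coe_sort μ.support]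
    simp only [AddSubmonoidClass.coe_finsetSum, MulMemClass.coe_mul, StarMemClass.coe_star, v,
      star_smul, star_trivial, smul_mul_smul_comm, sq, star_star]
  have e3 : Ex μ (fun ω => ‖g (y ω) x‖ ^ 2) = ∑ ω, ‖T (v ω)‖ ^ 2 := by
    rw [Ex_def, ← Finset.sum_coe_sort]
    refine Finset.sum_congr rfl fun ω _ => ?_
    change _ = ‖g (√(μ ω) • y ω) x‖ ^ 2
    rw [← Complex.coe_smul, map_smul, smul_apply, norm_smul, mul_pow, Complex.norm_real,
      Real.norm_of_nonneg (Real.sqrt_nonneg _), Real.sq_sqrt (hμ.nonneg _), smul_eq_mul]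
  rw [e3]
  have := mul_le_mul_of_nonneg_left (add_le_add e1 e2) (show 0 ≤ 2 * ‖x‖ ^ 2 by positivity)
  nlinarith

theorem IsLaw.cen_in (hμ : IsLaw μ) {g : Op H →ₗ[ℂ] Op H} (hg : Bd P g) {z a b : α → Op H}
    {A B C : ℝ} (hA : 0 ≤ A) (hB : 0 ≤ B) (hC : 0 ≤ C) (hz : ∀ ω ∈ μ.support, Cen P (z ω))
    (hZ : ∀ x, Ex μ (fun ω => ‖z ω x‖ ^ 2) ≤ A ^ 2 * ‖x‖ ^ 2)
    (hb : ∀ ω ∈ μ.support, b ω ∈ P ∧ ‖b ω‖ ≤ B) (ha : ∀ ω ∈ μ.support, ‖a ω‖ ≤ C) :
    ‖Ex μ fun ω => a ω * g (z ω * b ω)‖ ≤ C * (2 * (B * A)) := by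
  have key : ∀ z b : α → Op H, (∀ ω ∈ μ.support, ‖b ω‖ ≤ B) →
      (∀ x, Ex μ (fun ω => ‖z ω x‖ ^ 2) ≤ A ^ 2 * ‖x‖ ^ 2) → ∀ x,
      Ex μ (fun ω => ‖(b ω * z ω) x‖ ^ 2) ≤ (B * A) ^ 2 * ‖x‖ ^ 2 := fun z b hb hZ x => by
    refine (hμ.mono (g := fun ω => B ^ 2 * ‖z ω x‖ ^ 2) fun ω hω => ?_).trans ?_
    · rw [← mul_pow]; exact pow_le_pow_left₀ (norm_nonneg _) (nap (hb ω hω) le_rfl) 2
    · rw [Ex_const_mul, mul_pow, mul_assoc]
      exact mul_le_mul_of_nonneg_left (hZ x) (by positivity)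
  have h := hμ.groth hg (y := fun ω => z ω * b ω) (A := B * A)
    (fun ω hω => mul_mem (hz ω hω).1 (hb ω hω).1) (by positivity) (fun x => by
      rw [Ex_congr fun ω hω => by rw [(hz ω hω).2 _ (hb ω hω).1]]
      exact key z b (fun ω hω => (hb ω hω).2) hZ x) (fun x => by
      simp only [star_mul]
      exact key (fun ω => star (z ω)) (fun ω => star (b ω)) (fun ω hω => nst (hb ω hω).2)
        (fun x => by
          rw [Ex_congr fun ω hω => by rw [Cen.norm_star_apply (hz ω hω)]]; exact hZ x) x)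
  have := hμ.norm_star_mul (a := fun ω => star (a ω)) hC (by positivity)
    (hμ.sq_le fun ω hω => nst (ha ω hω)) h
  simpa using this

end Mom

/-! ### Letters -/

/-- Self-adjoint letters made from a unitary. -/
noncomputable def lt (u : Op H) : Fin 4 → Op H :=
  ![u + star u, -(u + star u), I • (u - star u), -(I • (u - star u))]

theorem lt_star (u : Op H) (j : Fin 4) : star (lt u j) = lt u j := by
  fin_cases j <;> simp [lt, add_comm, ← smul_neg]

theorem lt_mem {S : StarSubalgebra ℂ (Op H)} {u : Op H} (hu : u ∈ S) (j : Fin 4) : lt u j ∈ S := by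
  have h1 := add_mem hu (star_mem hu)
  have h2 := S.smul_mem (sub_mem hu (star_mem hu)) I
  fin_cases j
  exacts [h1, neg_mem h1, h2, neg_mem h2]

theorem lt_le {V : Type*} [NormedAddCommGroup V] [NormedSpace ℂ V] (L : Op H →ₗ[ℂ] V) (u : Op H)
    (j : Fin 4) : ‖L (lt u j)‖ ≤ ‖L u‖ + ‖L (star u)‖ := by
  have h1 : ‖L (u + star u)‖ ≤ ‖L u‖ + ‖L (star u)‖ := by rw [map_add]; exact norm_add_le _ _
  have h2 : ‖L (I • (u - star u))‖ ≤ ‖L u‖ + ‖L (star u)‖ := by
    rw [map_smul, norm_smul, Complex.norm_I, one_mul, map_sub]; exact norm_sub_le _ _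
  fin_cases j
  · exact h1
  · change ‖L (-(u + star u))‖ ≤ _
    rw [map_neg, norm_neg]; exact h1
  · exact h2
  · change ‖L (-(I • (u - star u)))‖ ≤ _
    rw [map_neg, norm_neg]; exact h2

theorem norm_lt {u : Op H} (hu : Uni P u) (j : Fin 4) : ‖lt u j‖ ≤ 2 := by
  have := lt_le LinearMap.id u j
  simp only [LinearMap.id_apply] at this
  linarith [hu.norm_le, hu.star.norm_le]

theorem av_lt (u : Op H) : av (lt u) = 0 := by simp [av, lt, Fin.sum_univ_four]

theorem av_lt2 (G : Op H →ₗ[ℂ] Op H) (a b c d u : Op H) :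
    av (fun j => a * lt u j * b * G (c * lt u j * d)) =
      a * u * b * G (c * star u * d) + a * star u * b * G (c * u * d) := by
  simp only [av, lt, Fin.sum_univ_four, Matrix.cons_val_zero, Matrix.cons_val_one,
    Matrix.cons_val, mul_add, add_mul, mul_neg, neg_mul, map_neg, map_add, mul_sub, sub_mul,
    map_sub, mul_smul_comm, smul_mul_assoc, map_smul, smul_smul, Complex.I_mul_I,
    Fintype.card_fin, smul_sub, smul_neg]
  match_scalars <;> ring

/-- Spectral parameters of one step. -/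
structure Sp (Y l y yp m : ℝ) : Prop where
  hY : 1 ≤ Y
  hl : 0 < l
  hl1 : l ≤ 1
  y0 : y ≠ 0
  yp0 : yp ≠ 0
  by1 : |y|⁻¹ ≤ Y
  by2 : |yp|⁻¹ ≤ Y
  by3 : |y| ≤ Y
  by4 : |yp| ≤ Y
  hm : |m| ≤ 1 / 2
  step : yp = y + 2 * l ^ 2 * m

theorem jet_res {Y l y yp m : ℝ} (h : Sp Y l y yp m) {x u : Op H} (hx : x ∈ P) (hxs : star x = x)
    (hu : Uni P u) :
    Jet P (81 * Y ^ 4) l (res x y) (fun j => res (x + l • lt u j) yp)
      (fun j => res x y * lt u j * res x y)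
      (fun j => res x y * lt u j * res x y * lt u j * res x y -
        (2 * (m * I) : ℂ) • (res x y * res x y)) := by
  have hY := h.hY
  have hl := h.hl
  have hl1 := h.hl1
  have hM : res x y ∈ P := res_mem hx hxs h.y0
  have hMb : ‖res x y‖ ≤ Y := (norm_res hxs h.y0).trans h.by1
  have hs : ∀ j, lt u j ∈ P := lt_mem (S := P.toStarSubalgebra) hu.1
  have hsb := norm_lt hu
  have hsa : ∀ j, star (l • lt u j) = l • lt u j := fun j => by
    rw [star_smul, star_trivial, lt_star]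
  have hxa : ∀ j, star (x + l • lt u j) = x + l • lt u j := fun j => by rw [star_add, hxs, hsa]
  set M := res x y with hMdef
  set γ : ℂ := 2 * (m * I) with hγ
  have hγb : ‖γ‖ ≤ 1 := by
    have := h.hm
    simp only [hγ, norm_mul, Complex.norm_real, Real.norm_eq_abs, Complex.norm_I,
      Complex.norm_ofNat]
    linarith
  have nγ : ∀ {a : Op H} {β : ℝ}, ‖a‖ ≤ β → ‖γ • a‖ ≤ β := fun {a β} ha => by
    rw [norm_smul]; exact (mul_le_of_le_one_left (norm_nonneg _) hγb).trans ha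
  have p : ∀ i j : ℕ, i ≤ j → Y ^ i ≤ Y ^ j := fun i j h => pow_le_pow_right₀ hY h
  have p4 : 0 < Y ^ 4 := by positivity
  refine ⟨hM, fun a => res_mem (add_mem hx (rsmul_mem _ (hs a))) (hxa a) h.yp0,
    fun a => mul_mem (mul_mem hM (hs a)) hM,
    fun a => sub_mem (mul_mem (mul_mem (mul_mem (mul_mem hM (hs a)) hM) (hs a)) hM)
      (csmul_mem _ (mul_mem hM hM)), ?_, fun a => ?_, fun a => ?_, fun a => ?_, ?_⟩
  · have := p 1 4 (by norm_num); rw [pow_one] at this; linarith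
  · have h1 := nm2 (nm2 hMb (hsb a)) hMb
    have := p 2 4 (by norm_num)
    nlinarith
  · have h1 := nm2 (nm2 (nm2 (nm2 hMb (hsb a)) hMb) (hsb a)) hMb
    have h2 := nγ (nm2 hMb hMb)
    have := p 3 4 (by norm_num)
    have := p 2 4 (by norm_num)
    refine (norm_sub_le _ _).trans ?_
    nlinarith
  · set M' := res (x + l • lt u a) yp with hM'
    have hM'b : ‖M'‖ ≤ Y := (norm_res (hxa a) h.yp0).trans h.by2
    set s := lt u a with hu
    set k : Op H := s - l • (γ • 1) with hk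
    have hid : M' = M + l • (M * k * M') := by
      have h1 := res_id hxs (hsa a) h.y0 h.yp0
      have h3 : l • s - (((yp - y : ℝ) : ℂ) * I) • (1 : Op H) = l • k := by
        rw [hk, smul_sub, ← Complex.coe_smul, ← Complex.coe_smul l, ← Complex.coe_smul l,
          smul_smul, smul_smul]
        congr 2
        rw [h.step, hγ]; push_cast; ring
      rw [h3, mul_smul_comm, smul_mul_assoc] at h1
      exact h1
    have hkb : ‖k‖ ≤ 3 := by
      refine (norm_sub_le _ _).trans ?_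
      have h1 := hsb a
      have h2 := nγ (norm_one_le' (H := H))
      rw [norm_smul l, Real.norm_of_nonneg hl.le]
      nlinarith
    have e0 : M' - M - l • (M * s * M) - l ^ 2 • (M * s * M * s * M - γ • (M * M)) =
        l ^ 3 • (M * k * M * k * M * k * M' - γ • (M * s * M * M) - γ • (M * M * k * M)) := by
      have h1 : M' = M + l • (M * k * M) + l ^ 2 • (M * k * M * k * M) +
          l ^ 3 • (M * k * M * k * M * k * M') := by
        conv_lhs => rw [hid, hid, hid]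
        simp only [mul_add, smul_add, mul_smul_comm, smul_smul, mul_assoc]
        module
      have h2 : M * k * M = M * s * M - l • γ • (M * M) := by
        simp only [hk, mul_sub, sub_mul, mul_smul_comm, smul_mul_assoc, mul_one]
      have h3 : M * k * M * k * M = M * s * M * s * M - l • γ • (M * s * M * M) -
          l • γ • (M * M * k * M) := by
        nth_rewrite 1 [h2]
        simp only [sub_mul, smul_mul_assoc]
        congr 1
        simp only [hk, mul_sub, sub_mul, mul_smul_comm, smul_mul_assoc, mul_one]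
      nth_rewrite 1 [h1]
      rw [h3, h2]
      module
    rw [e0, norm_smul, Real.norm_of_nonneg (by positivity), mul_comm]
    refine mul_le_mul_of_nonneg_right ?_ (by positivity)
    have h1 := nm2 (nm2 (nm2 (nm2 (nm2 (nm2 hMb hkb) hMb) hkb) hMb) hkb) hM'b
    have h2 := nγ (nm2 (nm2 (nm2 hMb (hsb a)) hMb) hMb)
    have h3 := nγ (nm2 (nm2 (nm2 hMb hMb) hkb) hMb)
    have := p 3 4 (by norm_num)
    refine (norm_sub_le _ _).trans ?_
    refine (add_le_add_left (norm_sub_le _ _) _).trans ?_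
    nlinarith
  · rw [← av_mul, ← mul_av, av_lt, mul_zero, zero_mul]

end Crest.Agent.R121.H7
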