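import Crest.Agent.R124.Types
import Crest.Agent.R124.CoreA
import Crest.Agent.R124.Groth

/-! Finitely supported laws and random walks. -/

set_option autoImplicit false
set_option linter.unusedSectionVars false

open scoped InnerProductSpace

namespace Crest.Agent.R121.H7
open Crest.Agent.R124

section Defs
variable {H : Type*} [NormedAddCommGroup H] [InnerProductSpace ℂ H] [CompleteSpace H]

/-- A linear map that is contractive from `P` to `P`. -/
structure Bd (P : VonNeumannAlgebra H) (g : Op H →ₗ[ℂ] Op H) : Prop where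
  mem : ∀ x ∈ P, g x ∈ P
  le : ∀ {x}, x ∈ P → ‖g x‖ ≤ ‖x‖

/-- The unitaries of `P`. -/
def Uni (P : VonNeumannAlgebra H) (u : Op H) : Prop := u ∈ P ∧ star u * u = 1 ∧ u * star u = 1

/-- Expectation. -/
noncomputable def Ex {α V : Type*} [AddCommGroup V] [Module ℝ V] (ν : α →₀ ℝ) (f : α → V) : V :=
  ν.sum fun a p => p • f a

/-- Finitely supported probability law. -/
structure IsLaw {α : Type*} (ν : α →₀ ℝ) : Prop where
  nonneg : ∀ a, 0 ≤ ν a
  one : Ex ν (fun _ => (1 : ℝ)) = 1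

/-- A law on the unitaries of `P`. -/
structure ULaw (P : VonNeumannAlgebra H) (ν : Op H →₀ ℝ) : Prop extends IsLaw ν where
  uni : ∀ u ∈ ν.support, Uni P u

/-- `g` is almost harmonic. -/
def Harm (P : VonNeumannAlgebra H) (ν : Op H →₀ ℝ) (η : ℝ) (g : Op H →ₗ[ℂ] Op H) : Prop :=
  ∀ x ∈ P, ‖Ex ν (fun u => star u * g (u * x)) - g x‖ ≤ η * ‖x‖

/-- Symmetries of trace zero. -/
def Sym0 (P : VonNeumannAlgebra H) (T : Tr P) : Set (Op H) :=
  {σ | σ ∈ P ∧ star σ = σ ∧ σ * σ = 1 ∧ T.τ σ = 0}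

/-- The type II₁ core: almost harmonic maps are almost modular. -/
def Core (P : VonNeumannAlgebra H) (T : Tr P) : Prop :=
  ∀ (S : Finset (Op H)) (ε : ℝ), 0 < ε → (∀ σ ∈ S, σ ∈ Sym0 P T) →
    ∃ (ν : Op H →₀ ℝ) (η : ℝ), ULaw P ν ∧ 0 < η ∧ ∀ g : Op H →ₗ[ℂ] Op H, Bd P g → Harm P ν η g →
      ∀ σ ∈ S, ‖T.τ (star (g σ - σ * g 1) * (g σ - σ * g 1))‖ ≤ ε

end Defs

section Basic
variable {α β V V' : Type*} [AddCommGroup V] [Module ℝ V] [AddCommGroup V'] [Module ℝ V']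

theorem Ex_def (ν : α →₀ ℝ) (f : α → V) : Ex ν f = ∑ a ∈ ν.support, ν a • f a := rfl

theorem Ex_eq_lc (ν : α →₀ ℝ) (f : α → V) : Ex ν f = Finsupp.linearCombination ℝ f ν := by
  rw [Finsupp.linearCombination_apply]; rfl

theorem Ex_congr {ν : α →₀ ℝ} {f g : α → V} (h : ∀ a ∈ ν.support, f a = g a) : Ex ν f = Ex ν g :=
  Finset.sum_congr rfl fun a ha => congrArg (ν a • ·) (h a ha)

theorem Ex_add (ν : α →₀ ℝ) (f g : α → V) : Ex ν (fun a => f a + g a) = Ex ν f + Ex ν g := by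
  simp only [Ex_def, smul_add, Finset.sum_add_distrib]

theorem Ex_sub (ν : α →₀ ℝ) (f g : α → V) : Ex ν (fun a => f a - g a) = Ex ν f - Ex ν g := by
  simp only [Ex_def, smul_sub, Finset.sum_sub_distrib]

theorem Ex_neg (ν : α →₀ ℝ) (f : α → V) : Ex ν (fun a => -f a) = -Ex ν f := by
  simp only [Ex_def, smul_neg, Finset.sum_neg_distrib]

theorem Ex_zero (ν : α →₀ ℝ) : Ex ν (fun _ => (0 : V)) = 0 := by simp [Ex_def]

theorem Ex_map (L : V →ₗ[ℝ] V') (ν : α →₀ ℝ) (f : α → V) :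
    Ex ν (fun a => L (f a)) = L (Ex ν f) := by
  simp only [Ex_def, map_sum, map_smul]

theorem Ex_rsmul (c : ℝ) (ν : α →₀ ℝ) (f : α → V) : Ex ν (fun a => c • f a) = c • Ex ν f := by
  simp only [Ex_def, Finset.smul_sum, smul_comm c]

theorem Ex_const_mul (c : ℝ) (ν : α →₀ ℝ) (f : α → ℝ) : Ex ν (fun a => c * f a) = c * Ex ν f :=
  Ex_rsmul c ν f

theorem Ex_mul_const (c : ℝ) (ν : α →₀ ℝ) (f : α → ℝ) : Ex ν (fun a => f a * c) = Ex ν f * c := by
  simp only [mul_comm _ c, Ex_const_mul]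

theorem Ex_sum {γ : Type*} (s : Finset γ) (ν : α →₀ ℝ) (f : γ → α → V) :
    Ex ν (fun a => ∑ c ∈ s, f c a) = ∑ c ∈ s, Ex ν (f c) := by
  simp only [Ex_def, Finset.smul_sum]; exact Finset.sum_comm

theorem IsLaw.const {ν : α →₀ ℝ} (h : IsLaw ν) (v : V) : Ex ν (fun _ => v) = v := by
  have := h.one
  simp only [Ex_def, smul_eq_mul, mul_one] at this
  rw [Ex_def, ← Finset.sum_smul, this, one_smul]

theorem Ex_single (a : α) (f : α → V) : Ex (Finsupp.single a 1) f = f a := by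
  simp [Ex_eq_lc]

theorem Ex_add_law (ν μ : α →₀ ℝ) (f : α → V) : Ex (ν + μ) f = Ex ν f + Ex μ f := by
  simp only [Ex_eq_lc, map_add]

theorem Ex_smul_law (c : ℝ) (ν : α →₀ ℝ) (f : α → V) : Ex (c • ν) f = c • Ex ν f := by
  simp only [Ex_eq_lc, map_smul]

theorem Ex_sum_law {γ : Type*} (s : Finset γ) (ν : γ → α →₀ ℝ) (f : α → V) :
    Ex (∑ c ∈ s, ν c) f = ∑ c ∈ s, Ex (ν c) f := by
  simp only [Ex_eq_lc, map_sum]

theorem Ex_bind (ν : α →₀ ℝ) (K : α → β →₀ ℝ) (f : β → V) :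
    Ex (Ex ν K) f = Ex ν fun a => Ex (K a) f := by
  simp only [Ex_eq_lc (V := V)]
  rw [← Ex_map]
  simp only [Ex_eq_lc]

theorem Ex_av_law {κ : Type*} [Fintype κ] (ν : κ → α →₀ ℝ) (f : α → V) :
    Ex (av ν) f = av fun k => Ex (ν k) f := by
  simp only [av, Ex_smul_law, Ex_sum_law]

theorem Ex_av {κ : Type*} [Fintype κ] (ν : α →₀ ℝ) (f : κ → α → V) :
    Ex ν (fun a => av fun k => f k a) = av fun k => Ex ν (f k) := by
  simp only [av, Ex_rsmul, Ex_sum]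

theorem Ex_comm (ν : α →₀ ℝ) (μ : β →₀ ℝ) (f : α → β → V) :
    Ex ν (fun a => Ex μ (f a)) = Ex μ fun b => Ex ν fun a => f a b := by
  simp only [Ex_def, Finset.smul_sum]
  rw [Finset.sum_comm]
  simp only [smul_comm (ν _)]

theorem Ex_apply_law (ν : α →₀ ℝ) (K : α → β →₀ ℝ) (b : β) : Ex ν K b = Ex ν fun a => K a b :=
  (Ex_map (Finsupp.lapply b) ν K).symm

theorem mem_support_Ex {ν : α →₀ ℝ} {K : α → β →₀ ℝ} {b : β} (h : b ∈ (Ex ν K).support) :
    ∃ a ∈ ν.support, b ∈ (K a).support := by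
  by_contra hc
  push Not at hc
  rw [Finsupp.mem_support_iff, Ex_apply_law] at h
  refine h ((Ex_congr fun a ha => Finsupp.notMem_support_iff.1 (hc a ha)).trans (Ex_zero ν))

theorem IsLaw.mono {ν : α →₀ ℝ} (h : IsLaw ν) {f g : α → ℝ} (hfg : ∀ a ∈ ν.support, f a ≤ g a) :
    Ex ν f ≤ Ex ν g :=
  Finset.sum_le_sum fun a ha => mul_le_mul_of_nonneg_left (hfg a ha) (h.nonneg a)

theorem IsLaw.le {ν : α →₀ ℝ} (h : IsLaw ν) {f : α → ℝ} {c : ℝ} (hf : ∀ a ∈ ν.support, f a ≤ c) :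
    Ex ν f ≤ c := (h.mono hf).trans_eq (h.const c)

theorem IsLaw.ex_nonneg {ν : α →₀ ℝ} (h : IsLaw ν) {f : α → ℝ} (hf : ∀ a ∈ ν.support, 0 ≤ f a) :
    0 ≤ Ex ν f := (Ex_zero ν).symm.trans_le (h.mono hf)

theorem IsLaw.single_le {ν : α →₀ ℝ} (h : IsLaw ν) {f : α → ℝ} (hf : ∀ a ∈ ν.support, 0 ≤ f a)
    {a : α} (ha : a ∈ ν.support) : ν a * f a ≤ Ex ν f :=
  Finset.single_le_sum (f := fun a => ν a • f a)
    (fun b hb => mul_nonneg (h.nonneg b) (hf b hb)) ha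

theorem isLaw_single (a : α) : IsLaw (Finsupp.single a (1 : ℝ)) :=
  ⟨fun b => by classical rw [Finsupp.single_apply]; split_ifs <;> norm_num, Ex_single _ _⟩

theorem IsLaw.bind {ν : α →₀ ℝ} (h : IsLaw ν) {K : α → β →₀ ℝ} (hK : ∀ a ∈ ν.support, IsLaw (K a)) :
    IsLaw (Ex ν K) :=
  ⟨fun b => by rw [Ex_apply_law]; exact h.ex_nonneg fun a ha => (hK a ha).nonneg b, by
    rw [Ex_bind, Ex_congr fun a ha => (hK a ha).one, h.one]⟩

theorem isLaw_av {κ : Type*} [Fintype κ] [Nonempty κ] {ν : κ → α →₀ ℝ} (h : ∀ k, IsLaw (ν k)) :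
    IsLaw (av ν) :=
  ⟨fun b => by
    have : av ν b = av fun k => ν k b := (av_map (Finsupp.lapply b) ν).symm
    rw [this]; exact av_nonneg fun k => (h k).nonneg b, by
    rw [Ex_av_law]; simp only [(h _).one, av_const]⟩

theorem mem_support_av {κ : Type*} [Fintype κ] {ν : κ → α →₀ ℝ} {b : α}
    (h : b ∈ (av ν).support) : ∃ k, b ∈ (ν k).support := by
  by_contra hc
  push Not at hc
  have : av ν b = av fun k => ν k b := (av_map (Finsupp.lapply b) ν).symm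
  rw [Finsupp.mem_support_iff, this] at h
  exact h (by simp only [Finsupp.notMem_support_iff.1 (hc _), av_zero])

/-- Cauchy-Schwarz. -/
theorem IsLaw.mul_le_sqrt {ν : α →₀ ℝ} (h : IsLaw ν) (f g : α → ℝ) :
    Ex ν (fun a => f a * g a) ≤ √(Ex ν fun a => f a ^ 2) * √(Ex ν fun a => g a ^ 2) := by
  have := Real.sum_mul_le_sqrt_mul_sqrt ν.support (fun a => √(ν a) * f a) fun a => √(ν a) * g a
  simp only [mul_pow, Real.sq_sqrt (h.nonneg _)] at this
  refine le_trans (le_of_eq (Finset.sum_congr rfl fun a _ => ?_)) this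
  have := Real.mul_self_sqrt (h.nonneg a)
  change ν a * (f a * g a) = _
  nth_rewrite 1 [← this]; ring

theorem IsLaw.le_sqrt {ν : α →₀ ℝ} (h : IsLaw ν) (f : α → ℝ) :
    Ex ν f ≤ √(Ex ν fun a => f a ^ 2) := by
  simpa [h.const] using h.mul_le_sqrt f fun _ => 1

end Basic

section Norm
variable {α V : Type*} [SeminormedAddCommGroup V] [NormedSpace ℝ V]

theorem IsLaw.norm_le_ex {ν : α →₀ ℝ} (h : IsLaw ν) (f : α → V) :
    ‖Ex ν f‖ ≤ Ex ν fun a => ‖f a‖ :=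
  (norm_sum_le _ _).trans (le_of_eq (Finset.sum_congr rfl fun a _ => by
    rw [norm_smul, Real.norm_of_nonneg (h.nonneg a)]; rfl))

theorem IsLaw.norm_le {ν : α →₀ ℝ} (h : IsLaw ν) {f : α → V} {c : ℝ}
    (hf : ∀ a ∈ ν.support, ‖f a‖ ≤ c) : ‖Ex ν f‖ ≤ c := (h.norm_le_ex f).trans (h.le hf)

end Norm

variable {H : Type*} [NormedAddCommGroup H] [InnerProductSpace ℂ H] [CompleteSpace H]
variable {P : VonNeumannAlgebra H}

section Op
variable {α : Type*}

theorem mul_Ex (a : Op H) (ν : α →₀ ℝ) (f : α → Op H) : a * Ex ν f = Ex ν fun i => a * f i :=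
  (Ex_map (LinearMap.mulLeft ℝ a) ν f).symm

theorem Ex_mul (a : Op H) (ν : α →₀ ℝ) (f : α → Op H) : Ex ν f * a = Ex ν fun i => f i * a :=
  (Ex_map (LinearMap.mulRight ℝ a) ν f).symm

theorem star_Ex (ν : α →₀ ℝ) (f : α → Op H) : star (Ex ν f) = Ex ν fun i => star (f i) := by
  simp only [Ex_def, star_sum, star_smul, star_trivial]

theorem Ex_csmul {V : Type*} [AddCommGroup V] [Module ℂ V] (c : ℂ) (ν : α →₀ ℝ) (f : α → V) :
    Ex ν (fun i => c • f i) = c • Ex ν f := by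
  simp only [Ex_def, Finset.smul_sum, smul_comm c]

theorem Ex_apply (ν : α →₀ ℝ) (f : α → Op H) (x : H) : Ex ν f x = Ex ν fun i => f i x := by
  simp only [Ex_def, FunLike.coe_sum, Finset.sum_apply, FunLike.coe_smul, Pi.smul_apply]

theorem inner_Ex (ν : α →₀ ℝ) (f : α → H) (y : H) : ⟪y, Ex ν f⟫_ℂ = Ex ν fun i => ⟪y, f i⟫_ℂ := by
  simp only [Ex_def, inner_sum, ← Complex.coe_smul, inner_smul_right, smul_eq_mul]

theorem re_Ex (ν : α →₀ ℝ) (f : α → ℂ) : (Ex ν f).re = Ex ν fun i => (f i).re :=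
  (Ex_map Complex.reLm ν f).symm

theorem Ex_lin (L : Op H →ₗ[ℂ] Op H) (ν : α →₀ ℝ) (f : α → Op H) :
    L (Ex ν f) = Ex ν fun i => L (f i) := (Ex_map (L.restrictScalars ℝ) ν f).symm

theorem Ex_mem {S : Type*} [SetLike S (Op H)] [AddSubmonoidClass S (Op H)] [SMulMemClass S ℂ (Op H)]
    {s : S} {ν : α →₀ ℝ} {f : α → Op H} (h : ∀ a ∈ ν.support, f a ∈ s) : Ex ν f ∈ s :=
  sum_mem fun a ha => by
    change ν a • f a ∈ s
    rw [← Complex.coe_smul]; exact SMulMemClass.smul_mem _ (h a ha)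

theorem Ex_memP {ν : α →₀ ℝ} {f : α → Op H} (h : ∀ a ∈ ν.support, f a ∈ P) : Ex ν f ∈ P :=
  sum_mem fun a ha => rsmul_mem _ (h a ha)

end Op

/-! ### Unitaries and walks -/

theorem Uni.one : Uni P (1 : Op H) := ⟨one_mem P, by simp, by simp⟩

theorem Uni.mul {u v : Op H} (hu : Uni P u) (hv : Uni P v) : Uni P (u * v) :=
  ⟨mul_mem hu.1 hv.1, by rw [star_mul, mul_assoc, ← mul_assoc (star u), hu.2.1, one_mul, hv.2.1],
    by rw [star_mul, mul_assoc, ← mul_assoc v, hv.2.2, one_mul, hu.2.2]⟩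

theorem Uni.star {u : Op H} (hu : Uni P u) : Uni P (star u) :=
  ⟨star_mem hu.1, by rw [star_star, hu.2.2], by rw [star_star, hu.2.1]⟩

theorem Uni.norm_le {u : Op H} (hu : Uni P u) : ‖u‖ ≤ 1 := Gr.norm_isom hu.2.1

theorem Uni.norm_apply {u : Op H} (hu : Uni P u) (x : H) : ‖u x‖ = ‖x‖ := by
  have h1 : ‖u x‖ ≤ ‖x‖ := (u.le_opNorm x).trans (mul_le_of_le_one_left (norm_nonneg _) hu.norm_le)
  have h2 : ‖(Star.star u) (u x)‖ ≤ ‖u x‖ :=
    ((Star.star u).le_opNorm _).trans (mul_le_of_le_one_left (norm_nonneg _) hu.star.norm_le)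
  have h3 : (Star.star u) (u x) = x := DFunLike.congr_fun hu.2.1 x
  rw [h3] at h2
  exact le_antisymm h1 h2

theorem Uni.norm_mul_le {u : Op H} (hu : Uni P u) (x : Op H) : ‖u * x‖ ≤ ‖x‖ := by
  simpa using nm2 hu.norm_le (le_refl ‖x‖)

theorem Uni.norm_mul_le' {u : Op H} (hu : Uni P u) (x : Op H) : ‖x * u‖ ≤ ‖x‖ := by
  simpa using nm2 (le_refl ‖x‖) hu.norm_le

/-- Law of the product of two independent variables. -/
noncomputable def conv (ν μ : Op H →₀ ℝ) : Op H →₀ ℝ :=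
  Ex ν fun s => Ex μ fun x => Finsupp.single (s * x) 1

theorem Ex_conv {V : Type*} [AddCommGroup V] [Module ℝ V] (ν μ : Op H →₀ ℝ) (f : Op H → V) :
    Ex (conv ν μ) f = Ex ν fun s => Ex μ fun x => f (s * x) := by
  simp only [conv, Ex_bind, Ex_single]

theorem mem_support_conv {ν μ : Op H →₀ ℝ} {u : Op H} (h : u ∈ (conv ν μ).support) :
    ∃ s ∈ ν.support, ∃ x ∈ μ.support, u = s * x := by
  obtain ⟨s, hs, h⟩ := mem_support_Ex h
  obtain ⟨x, hx, h⟩ := mem_support_Ex h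
  exact ⟨s, hs, x, hx, Finset.mem_singleton.1 (Finsupp.support_single_subset h)⟩

theorem ULaw.conv {ν μ : Op H →₀ ℝ} (h : ULaw P ν) (h' : ULaw P μ) : ULaw P (conv ν μ) :=
  ⟨h.toIsLaw.bind fun _ _ => h'.toIsLaw.bind fun _ _ => isLaw_single _, fun u hu => by
    obtain ⟨s, hs, x, hx, rfl⟩ := mem_support_conv hu
    exact (h.uni s hs).mul (h'.uni x hx)⟩

theorem ulaw_single {u : Op H} (hu : Uni P u) : ULaw P (Finsupp.single u 1) :=
  ⟨isLaw_single _, fun v hv => by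
    rwa [Finset.mem_singleton.1 (Finsupp.support_single_subset hv)]⟩

theorem ulaw_av {κ : Type*} [Fintype κ] [Nonempty κ] {ν : κ → Op H →₀ ℝ} (h : ∀ k, ULaw P (ν k)) :
    ULaw P (av ν) :=
  ⟨isLaw_av fun k => (h k).toIsLaw, fun u hu => by
    obtain ⟨k, hk⟩ := mem_support_av hu
    exact (h k).uni u hk⟩

/-- The random walk. -/
noncomputable def W (ν : Op H →₀ ℝ) : ℕ → Op H →₀ ℝ
  | 0 => Finsupp.single 1 1
  | j + 1 => conv ν (W ν j)

theorem ULaw.W {ν : Op H →₀ ℝ} (h : ULaw P ν) (j : ℕ) : ULaw P (W ν j) := by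
  induction j with
  | zero => exact ulaw_single Uni.one
  | succ j ih => exact h.conv ih

section
variable {V : Type*} [AddCommGroup V] [Module ℝ V]

theorem Ex_W_zero (ν : Op H →₀ ℝ) (f : Op H → V) : Ex (W ν 0) f = f 1 := Ex_single _ _

theorem Ex_W_succ (ν : Op H →₀ ℝ) (j : ℕ) (f : Op H → V) :
    Ex (W ν (j + 1)) f = Ex ν fun s => Ex (W ν j) fun x => f (s * x) := Ex_conv _ _ _

theorem Ex_W_add (ν : Op H →₀ ℝ) (a j : ℕ) (f : Op H → V) :
    Ex (W ν (a + j)) f = Ex (W ν a) fun s => Ex (W ν j) fun x => f (s * x) := by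
  induction a generalizing f with
  | zero => simp only [zero_add, Ex_W_zero, one_mul]
  | succ a ih =>
    rw [show a + 1 + j = (a + j) + 1 by ring, Ex_W_succ, Ex_W_succ]
    simp only [ih, mul_assoc]

theorem Ex_W_one (ν : Op H →₀ ℝ) (f : Op H → V) : Ex (W ν 1) f = Ex ν f := by
  simp only [Ex_W_succ, Ex_W_zero, mul_one]

theorem Ex_W_succ' (ν : Op H →₀ ℝ) (j : ℕ) (f : Op H → V) :
    Ex (W ν (j + 1)) f = Ex (W ν j) fun x => Ex ν fun s => f (x * s) := by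
  simp only [Ex_W_add, Ex_W_one]

end

theorem Harm.mono {ν : Op H →₀ ℝ} {η η' : ℝ} {g : Op H →ₗ[ℂ] Op H} (h : Harm P ν η g)
    (hη : η ≤ η') : Harm P ν η' g := fun x hx =>
  (h x hx).trans (mul_le_mul_of_nonneg_right hη (norm_nonneg _))

theorem Harm.W {ν : Op H →₀ ℝ} (hν : ULaw P ν) {η : ℝ} (hη : 0 ≤ η) {g : Op H →ₗ[ℂ] Op H}
    (h : Harm P ν η g) (j : ℕ) : Harm P (W ν j) (j * η) g := by
  induction j with
  | zero => intro x _; simp [Ex_W_zero]
  | succ j ih =>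
    intro x hx
    have e : Ex (H7.W ν (j + 1)) (fun u => star u * g (u * x)) - g x =
        Ex (H7.W ν j) (fun u => star u * (Ex ν (fun s => star s * g (s * (u * x))) - g (u * x))) +
          (Ex (H7.W ν j) (fun u => star u * g (u * x)) - g x) := by
      rw [Ex_W_succ, Ex_comm]
      simp only [mul_sub, Ex_sub, mul_Ex, star_mul, mul_assoc]
      abel
    rw [e]
    refine (norm_add_le _ _).trans ?_
    have h1 := ih x hx
    have h2 : ‖Ex (H7.W ν j)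
        (fun u => star u * (Ex ν (fun s => star s * g (s * (u * x))) - g (u * x)))‖ ≤ η * ‖x‖ :=
      (hν.W j).toIsLaw.norm_le fun u hu => by
        have hu := (hν.W j).uni u hu
        refine (hu.star.norm_mul_le _).trans ((h _ (mul_mem hu.1 hx)).trans ?_)
        exact mul_le_mul_of_nonneg_left (hu.norm_mul_le x) hη
    push_cast; linarith

end Crest.Agent.R121.H7
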