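import Crest.Agent.R121.H7.Jets

/-! One step of the flow: estimates at a fixed point. -/

set_option autoImplicit false
set_option linter.unusedSectionVars false

open scoped InnerProductSpace
open Complex (I)

namespace Crest.Agent.R121.H7
open Crest.Agent.R124

variable {H : Type*} [NormedAddCommGroup H] [InnerProductSpace ℂ H] [CompleteSpace H]
variable {P : VonNeumannAlgebra H}

/-- Real part of the quadratic form. -/
noncomputable def qf (ξ : H) : Op H →ₗ[ℝ] ℝ where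
  toFun A := (⟪ξ, A ξ⟫_ℂ).re
  map_add' A B := by simp
  map_smul' c A := by
    simp only [smul_apply, ← Complex.coe_smul, inner_smul_right, RingHom.id_apply, smul_eq_mul,
      Complex.re_ofReal_mul]

theorem qf_star_mul (ξ : H) (a b : Op H) : qf ξ (star a * b) = (⟪a ξ, b ξ⟫_ℂ).re := by
  change (⟪ξ, (star a * b) ξ⟫_ℂ).re = _
  rw [mul_apply_eq_comp, ContinuousLinearMap.star_eq_adjoint,
    ContinuousLinearMap.adjoint_inner_right]

theorem qf_sq (ξ : H) (a : Op H) : qf ξ (star a * a) = ‖a ξ‖ ^ 2 := by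
  rw [qf_star_mul, ← inner_self_eq_norm_sq (𝕜 := ℂ)]; rfl

theorem qf_le (ξ : H) (a b : Op H) : qf ξ (star a * b) ≤ ‖a ξ‖ * ‖b ξ‖ := by
  rw [qf_star_mul]; exact (Complex.re_le_norm _).trans (norm_inner_le_norm _ _)

theorem qf_le_norm (ξ : H) {a : Op H} {c : ℝ} (h : ‖a‖ ≤ c) : qf ξ a ≤ c * ‖ξ‖ ^ 2 :=
  (re_inner_le a ξ).trans (mul_le_mul_of_nonneg_right h (by positivity))

theorem jet_ex {lam : Op H →₀ ℝ} (hlam : IsLaw lam) {C l : ℝ} (hl : 0 ≤ l) {X : Op H}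
    {X' d e : Op H → Fin 4 → Op H} (h : ∀ u ∈ lam.support, Jet P C l X (X' u) (d u) (e u)) :
    ‖Ex lam (fun u => av (X' u)) - X - l ^ 2 • Ex lam (fun u => av (e u))‖ ≤ C * l ^ 3 := by
  rw [← Ex_rsmul, ← hlam.const X, ← Ex_sub, ← Ex_sub]
  exact hlam.norm_le fun u hu => (h u hu).av_le hl

theorem ex_lt2 {lam : Op H →₀ ℝ} (hs : Sym lam) (G : Op H →ₗ[ℂ] Op H) (a b c d : Op H) :
    Ex lam (fun u => av fun j => a * lt u j * b * G (c * lt u j * d)) =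
      (2 : ℝ) • (a * Ex lam fun u => star u * (b * G (c * (u * d)))) := by
  simp only [av_lt2, Ex_add]
  rw [← hs.ex fun u => a * u * b * G (c * star u * d), two_smul, mul_Ex]
  simp only [star_star, mul_assoc]

theorem ex_e {lam : Op H →₀ ℝ} (hlam : IsLaw lam) (hs : Sym lam) (R : Op H) (c : ℂ) :
    Ex lam (fun u => av fun j => R * lt u j * R * lt u j * R - (2 * c) • (R * R)) =
      (2 : ℝ) • (R * (Cj lam R - c • 1) * R) := by
  have := ex_lt2 hs LinearMap.id R R 1 R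
  simp only [LinearMap.id_apply, one_mul, ← mul_assoc, ← Ex_mul] at this
  simp only [av_sub, av_const, Ex_sub, hlam.const, this]
  simp only [Cj, mul_sub, sub_mul, mul_smul_comm, smul_mul_assoc, mul_one, mul_assoc]
  module

theorem Good.rule' {T : Tr P} {F : Finset (Op H)} {ρ η Y : ℝ} {ν lam : Op H →₀ ℝ}
    (hG : Good P T F ρ ν lam η) (hρ : 0 ≤ ρ) {y w x : Op H} (hy : y ∈ F) (hw : w ∈ F)
    {g : Op H →ₗ[ℂ] Op H} (hg : Bd P g) (hh : Harm P ν η g) (hx : x ∈ P) (hY : 0 < Y)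
    (hn : ‖x‖ ≤ Y) :
    ‖Ex lam (fun u => star u * (w * g (y * (u * x)))) - T.τ (w * y) * g x‖ ≤ ρ * Y := by
  have key : ‖Ex lam (fun u => star u * (w * g (y * (u * ((Y⁻¹ : ℂ) • x))))) -
      T.τ (w * y) * g ((Y⁻¹ : ℂ) • x)‖ ≤ ρ := by
    refine ContinuousLinearMap.opNorm_le_of_unit_norm hρ fun ξ hξ => ?_
    rw [sub_apply, Ex_apply]
    refine hG.rule y hy w hw g _ ξ ⟨hg, hh, csmul_mem _ hx, ?_, hξ.le⟩
    rw [norm_smul, norm_inv, Complex.norm_real, Real.norm_of_nonneg hY.le, inv_mul_le_one₀ hY]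
    exact hn
  simp only [mul_smul_comm, map_smul, Ex_csmul, ← smul_sub, norm_smul, norm_inv, Complex.norm_real,
    Real.norm_of_nonneg hY.le] at key
  rwa [inv_mul_le_iff₀ hY, mul_comm] at key

/-- Deviation of the trace of the resolvent. -/
noncomputable def Zr (T : Tr P) (x : Op H) (y m : ℝ) : Op H := T.τ (res x y) - (m * I : ℂ) • 1

theorem norm_mI {m : ℝ} (hm : |m| ≤ 1 / 2) : ‖(m * I : ℂ) • (1 : Op H)‖ ≤ 1 := by
  rw [norm_smul, norm_mul, Complex.norm_I, Complex.norm_real, Real.norm_eq_abs]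
  nlinarith [norm_one_le' (H := H), abs_nonneg m, norm_nonneg (1 : Op H)]

theorem Zr_cen (T : Tr P) {x : Op H} (hx : x ∈ P) (hxs : star x = x) {y : ℝ} (hy : y ≠ 0)
    (m : ℝ) : Cen P (Zr T x y m) := (T.cen _ (res_mem hx hxs hy)).sub ((Cen.one P).csmul _)

theorem stepZ {Y l y yp m η : ℝ} (h : Sp Y l y yp m) {T : Tr P} {F : Finset (Op H)}
    {ν lam : Op H →₀ ℝ} (hG : Good P T F l ν lam η) {x : Op H} (hx : x ∈ P) (hxs : star x = x)
    (hF : res x y ∈ F) (ξ : H) :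
    Ex lam (fun u => av fun j => ‖Zr T (x + l • lt u j) yp m ξ‖ ^ 2) ≤
      (1 + 6 * Y ^ 2 * l ^ 2) * ‖Zr T x y m ξ‖ ^ 2 + 70000 * Y ^ 8 * l ^ 3 * ‖ξ‖ ^ 2 := by
  have hY := h.hY
  have hl := h.hl
  have hlam := hG.law.toIsLaw
  have hR : res x y ∈ P := res_mem hx hxs h.y0
  have hRb : ‖res x y‖ ≤ Y := (norm_res hxs h.y0).trans h.by1
  have hZ := Zr_cen T hx hxs h.y0 m
  have J : ∀ u ∈ lam.support, _ := fun u hu =>
    ((jet_res h hx hxs (hG.law.uni u hu)).map zero_le_one (T.τ.restrictScalars ℝ) fun a ha =>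
      ⟨(T.cen a ha).1, (T.norm_le a ha).trans_eq (one_mul _).symm⟩).sub_const hl.le
      (csmul_mem (m * I) (one_mem P)) (norm_mI h.hm)
  have h1 := qf_le_norm ξ (jet_ex hlam hl.le fun u hu => (J u hu).star.mul hl.le h.hl1 (J u hu))
  simp only [LinearMap.restrictScalars_apply] at h1
  set R := res x y with hRdef
  change qf ξ (Ex lam (fun u => av fun j => star (Zr T (x + l • lt u j) yp m) *
    Zr T (x + l • lt u j) yp m) - star (Zr T x y m) * Zr T x y m - l ^ 2 • Ex lam fun u => av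
      fun j => star _ * Zr T x y m + star (Zr T x y m) * _ + _) ≤ _ at h1
  set Z := Zr T x y m with hZdef
  simp only [av_add, Ex_add, ← av_mul, ← Ex_mul, ← mul_av, ← mul_Ex, ← star_av, ← star_Ex,
    ← av_lin T.τ, ← Ex_lin T.τ, ex_e hlam hG.sym] at h1
  set e := T.τ ((2 : ℝ) • (R * (Cj lam R - (m * I : ℂ) • 1) * R)) with he
  simp only [map_sub, map_add, map_smul, ← Ex_map (qf ξ), ← av_map (qf ξ), qf_sq,
    smul_eq_mul] at h1
  have hC := Cj_mem hG.law hR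
  have hτ := T.cen R hR
  have e1 : e = (2 : ℝ) • (T.τ (R * (Cj lam R - T.τ R) * R) + T.τ (R * R) * Z) := by
    rw [he, T.map_rsmul, ← hZ.2 _ (T.cen _ (mul_mem hR hR)).1, ← T.cen_mul _ hZ _ (mul_mem hR hR),
      ← map_add, ← mul_assoc Z, hZ.2 R hR, ← add_mul, ← mul_add, hZdef, Zr]
    congr 4; abel
  have b1 : ‖e ξ‖ ≤ 2 * (Y * l * Y * ‖ξ‖ + Y * Y * ‖Z ξ‖) := by
    rw [e1, smul_apply, norm_smul, Real.norm_ofNat, add_apply]
    refine mul_le_mul_of_nonneg_left ((norm_add_le _ _).trans (add_le_add ?_ ?_)) zero_le_two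
    · exact nap ((T.norm_le _ (mul_mem (mul_mem hR (sub_mem hC hτ.1)) hR)).trans
        (nm2 (nm2 hRb (hG.dix R hF)) hRb)) le_rfl
    · exact nap (x := Z ξ) ((T.norm_le _ (mul_mem hR hR)).trans (nm2 hRb hRb)) le_rfl
  have b2 : Ex lam (fun u => av fun j => ‖T.τ (R * lt u j * R) ξ‖ ^ 2) ≤
      4 * (l * ((Y * Y) ^ 2 * ‖ξ‖ ^ 2)) := by
    have s1 := hG.small _ (mul_mem hR hR) ξ
    have s2 := hG.sym fun u => ‖T.τ (R * R * u) ξ‖ ^ 2
    refine (hlam.mono (g := fun u => 2 * ‖T.τ (R * R * u) ξ‖ ^ 2 +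
      2 * ‖T.τ (R * R * star u) ξ‖ ^ 2) fun u hu => av_le (by positivity) fun j => ?_).trans ?_
    · rw [T.comm _ (mul_mem hR (lt_mem (S := P.toStarSubalgebra) (hG.law.uni u hu).1 j)) _ hR,
        ← mul_assoc]
      have := lt_le ((ContinuousLinearMap.apply ℂ H ξ).toLinearMap ∘ₗ T.τ ∘ₗ
        LinearMap.mulLeft ℂ (R * R)) u j
      change ‖T.τ (R * R * lt u j) ξ‖ ≤ ‖T.τ (R * R * u) ξ‖ + ‖T.τ (R * R * star u) ξ‖ at this
      nlinarith [pow_le_pow_left₀ (norm_nonneg _) this 2,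
        sq_nonneg (‖T.τ (R * R * u) ξ‖ - ‖T.τ (R * R * star u) ξ‖)]
    · rw [Ex_add, Ex_const_mul, Ex_const_mul, s2]
      have : ‖R * R‖ ^ 2 ≤ (Y * Y) ^ 2 := pow_le_pow_left₀ (norm_nonneg _) (nm2 hRb hRb) 2
      have : l * (‖R * R‖ ^ 2 * ‖ξ‖ ^ 2) ≤ l * ((Y * Y) ^ 2 * ‖ξ‖ ^ 2) := by gcongr
      linarith
  have b3 := qf_le ξ e Z
  have b4 := qf_le ξ Z e
  have b5 := mul_le_mul_of_nonneg_right b1 (norm_nonneg (Z ξ))
  have b6 : 2 * (l * ‖ξ‖ * ‖Z ξ‖) ≤ l * ‖ξ‖ ^ 2 + ‖Z ξ‖ ^ 2 := by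
    have := mul_le_mul_of_nonneg_right h.hl1 (mul_nonneg hl.le (sq_nonneg ‖ξ‖))
    nlinarith [sq_nonneg (l * ‖ξ‖ - ‖Z ξ‖)]
  have b7 := mul_le_mul_of_nonneg_left b6 (show 0 ≤ 2 * Y ^ 2 by positivity)
  have p1 : 1 ≤ Y ^ 4 := one_le_pow₀ hY
  have p2 : Y ^ 2 ≤ Y ^ 8 := pow_le_pow_right₀ hY (by norm_num)
  have p4 : Y ^ 4 ≤ Y ^ 8 := pow_le_pow_right₀ hY (by norm_num)
  have c1 : 10 * (1 * (81 * Y ^ 4) + 1) * (1 * (81 * Y ^ 4) + 1) + 2 * Y ^ 2 + 4 * Y ^ 4 ≤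
      70000 * Y ^ 8 := by nlinarith
  have c2 := mul_le_mul_of_nonneg_right c1 (show 0 ≤ l ^ 3 * ‖ξ‖ ^ 2 by positivity)
  have c3 : qf ξ (star e * Z) + qf ξ (star Z * e) +
      Ex lam (fun u => av fun j => ‖T.τ (R * lt u j * R) ξ‖ ^ 2) ≤
      6 * Y ^ 2 * ‖Z ξ‖ ^ 2 + (2 * Y ^ 2 + 4 * Y ^ 4) * (l * ‖ξ‖ ^ 2) := by nlinarith
  have c4 := mul_le_mul_of_nonneg_left c3 (sq_nonneg l)
  nlinarith

/-- The weighted product of resolvents. -/
noncomputable def Aw (g : Op H →ₗ[ℂ] Op H) (x : Op H) (y y' : ℝ) : Op H :=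
  (((y' - y : ℝ) : ℂ) * I) • (res x y' * g (res x y))

/-- The drift of `Aw`. -/
noncomputable def Nw (T : Tr P) (g : Op H →ₗ[ℂ] Op H) (x : Op H) (y m y' m' : ℝ) : Op H :=
  Zr T x y m * (res x y' * g (res x y)) - Zr T x y' m' * (res x y' * g (res x y)) +
    (((y' - y : ℝ) : ℂ) * I) • (Zr T x y' m' * (res x y' * res x y' * g (res x y)) +
      res x y' * g (Zr T x y m * (res x y * res x y)))

theorem norm_Δ {y y' Y : ℝ} (h : |y| ≤ Y) (h' : |y'| ≤ Y) : ‖((y' - y : ℝ) : ℂ) * I‖ ≤ 2 * Y := by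
  rw [norm_mul, Complex.norm_I, mul_one, Complex.norm_real, Real.norm_eq_abs]
  linarith [abs_sub y' y]

theorem ncs {c : ℂ} {a : Op H} {α β : ℝ} (hc : ‖c‖ ≤ α) (ha : ‖a‖ ≤ β) : ‖c • a‖ ≤ α * β := by
  rw [norm_smul]; exact mul_le_mul hc ha (norm_nonneg _) ((norm_nonneg _).trans hc)

theorem nrs {c : ℝ} {a : Op H} {β : ℝ} (hc : 0 ≤ c) (ha : ‖a‖ ≤ β) : ‖c • a‖ ≤ c * β := by
  rw [norm_smul, Real.norm_of_nonneg hc]; exact mul_le_mul_of_nonneg_left ha hc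

theorem stepA {Y l y yp m y' yp' m' η : ℝ} (h : Sp Y l y yp m) (h' : Sp Y l y' yp' m') {T : Tr P}
    {F : Finset (Op H)} {ν lam : Op H →₀ ℝ} (hG : Good P T F l ν lam η) {x : Op H} (hx : x ∈ P)
    (hxs : star x = x) (hF : res x y ∈ F) (hF' : res x y' ∈ F) {g : Op H →ₗ[ℂ] Op H} (hg : Bd P g)
    (hh : Harm P ν η g) :
    ‖Ex lam (fun u => av fun j => Aw g (x + l • lt u j) yp yp') - Aw g x y y' -
      (2 * l ^ 2) • Nw T g x y m y' m'‖ ≤ 140000 * Y ^ 9 * l ^ 3 := by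
  have hY := h.hY
  have hl := h.hl
  have hlam := hG.law.toIsLaw
  have hR : res x y ∈ P := res_mem hx hxs h.y0
  have hRb : ‖res x y‖ ≤ Y := (norm_res hxs h.y0).trans h.by1
  have hR' : res x y' ∈ P := res_mem hx hxs h'.y0
  have hRb' : ‖res x y'‖ ≤ Y := (norm_res hxs h'.y0).trans h'.by1
  have hZ := Zr_cen T hx hxs h.y0 m
  have hZ' := Zr_cen T hx hxs h'.y0 m'
  have h1 := jet_ex hlam hl.le fun u hu => (jet_res h' hx hxs (hG.law.uni u hu)).mul hl.le h.hl1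
    ((jet_res h hx hxs (hG.law.uni u hu)).map zero_le_one (g.restrictScalars ℝ) fun a ha =>
      ⟨hg.mem a ha, (hg.le ha).trans_eq (one_mul _).symm⟩)
  have hid := res_id (s := 0) hxs (star_zero _) h'.y0 h.y0
  have r1 := hG.rule' hl.le hF hF' hg hh hR (by linarith) hRb
  simp only [LinearMap.restrictScalars_apply, add_zero] at h1 hid
  simp only [Aw, Nw, av_csmul, Ex_csmul]
  set R := res x y with hRdef
  set R' := res x y' with hR'def
  simp only [av_add, Ex_add, ex_lt2 hG.sym] at h1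
  simp only [← av_mul, ← Ex_mul, ← mul_av, ← mul_Ex, ← av_lin g, ← Ex_lin g,
    ex_e hlam hG.sym] at h1
  set Z := Zr T x y m with hZdef
  set Z' := Zr T x y' m' with hZ'def
  set A := R' * g R with hA
  set B := Ex lam fun u => star u * (R' * g (R * (u * R))) with hB
  set EA := Ex lam fun u => av fun j => res (x + l • lt u j) yp' * g (res (x + l • lt u j) yp)
  set Δ : ℂ := ((y' - y : ℝ) : ℂ) * I with hΔ
  set Δp : ℂ := ((yp' - yp : ℝ) : ℂ) * I with hΔp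
  set γ : ℂ := ((m' - m : ℝ) : ℂ) * I with hγ
  have eΔ : Δp = Δ + 2 * l ^ 2 * γ := by
    rw [hΔp, hΔ, hγ, h.step, h'.step]; push_cast; ring
  have hC := Cj_mem hG.law hR
  have hC' := Cj_mem hG.law hR'
  have hτ := T.cen R hR
  have hτ' := T.cen R' hR'
  have hτ2 := T.cen _ (mul_mem hR' hR)
  have e0 : ∀ {R Z : Op H} {c : ℂ}, R ∈ P → Cen P Z → Z = T.τ R - c • 1 →
      R * (Cj lam R - c • 1) * R = R * (Cj lam R - T.τ R) * R + Z * (R * R) := by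
    intro R Z c hR hZ e
    rw [← mul_assoc Z, hZ.2 R hR, ← add_mul, ← mul_add, e]
    congr 2; abel
  rw [e0 hR hZ rfl, e0 hR' hZ' rfl] at h1
  have key : Δ • (T.τ (R' * R) * A) = Z * A - Z' * A - γ • A := by
    have : Δ • (R' * R) = R - R' := by
      nth_rewrite 2 [hid]
      rw [hΔ]; simp only [zero_sub, mul_neg, neg_mul, mul_smul_comm, smul_mul_assoc, mul_one]
      push_cast; module
    rw [← smul_mul_assoc, ← map_smul, this, map_sub, hZdef, hZ'def, Zr, Zr, hγ]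
    simp only [sub_mul, smul_mul_assoc, one_mul]
    push_cast; module
  set err := R' * (Cj lam R' - T.τ R') * R' * g R + R' * g (R * (Cj lam R - T.τ R) * R) +
    R' * (B - T.τ (R' * R) * g R) with herr
  set M := Z' * (R' * R' * g R) + R' * g (Z * (R * R)) + T.τ (R' * R) * A with hM
  have e1 : ((2 : ℝ) • (R' * (Cj lam R' - T.τ R') * R' + Z' * (R' * R'))) * g R +
      R' * g ((2 : ℝ) • (R * (Cj lam R - T.τ R) * R + Z * (R * R))) + (2 : ℝ) • (R' * B) =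
      (2 : ℝ) • (err + M) := by
    rw [herr, hM, hA, mul_sub R' B, ← mul_assoc (T.τ (R' * R)), hτ2.2 R' hR', ← Complex.coe_smul _
      (R * _ * R + _), map_smul, map_add]
    simp only [add_mul, mul_add, smul_mul_assoc, mul_smul_comm, mul_assoc]
    module
  rw [e1] at h1
  have e2 : Δp • EA - Δ • A - (2 * l ^ 2) • (Z * A - Z' * A +
      Δ • (Z' * (R' * R' * g R) + R' * g (Z * (R * R)))) =
      Δp • (EA - A - l ^ 2 • (2 : ℝ) • (err + M)) + (2 * l ^ 2) • Δp • err +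
        (4 * l ^ 4) • γ • M := by
    rw [eΔ, hM]
    linear_combination (norm := module) (2 * l ^ 2) • key
  have gR : ‖g R‖ ≤ Y := (hg.le hR).trans hRb
  have bZ : ∀ {R : Op H} {m : ℝ}, R ∈ P → ‖R‖ ≤ Y → |m| ≤ 1 / 2 →
      ‖T.τ R - (m * I : ℂ) • (1 : Op H)‖ ≤ 2 * Y := fun {R m} hR hb hm =>
    (norm_sub_le _ _).trans (by linarith [norm_mI (H := H) hm, T.norm_le R hR])
  have bE : ‖err‖ ≤ Y * l * Y * Y + Y * (Y * l * Y) + Y * (l * Y) :=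
    norm_add₃_le.trans (add_le_add (add_le_add
      (nm2 (nm2 (nm2 hRb' (hG.dix R' hF')) hRb') gR)
      (nm2 hRb' ((hg.le (mul_mem (mul_mem hR (sub_mem hC hτ.1)) hR)).trans
        (nm2 (nm2 hRb (hG.dix R hF)) hRb)))) (nm2 hRb' r1))
  have bM : ‖M‖ ≤ 2 * Y * (Y * Y * Y) + Y * (2 * Y * (Y * Y)) + Y * Y * (Y * Y) :=
    norm_add₃_le.trans (add_le_add (add_le_add
      (nm2 (bZ hR' hRb' h'.hm) (nm2 (nm2 hRb' hRb') gR))
      (nm2 hRb' ((hg.le (mul_mem hZ.1 (mul_mem hR hR))).trans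
        (nm2 (bZ hR hRb h.hm) (nm2 hRb hRb)))))
      (nm2 ((T.norm_le _ (mul_mem hR' hR)).trans (nm2 hRb' hRb)) (nm2 hRb' gR)))
  have bΔ : ‖Δp‖ ≤ 2 * Y := norm_Δ h.by4 h'.by4
  have bγ : ‖γ‖ ≤ 2 * (1 / 2) := norm_Δ h.hm h'.hm
  rw [e2]
  have c1 := ncs bΔ h1
  have c2 := nrs (show 0 ≤ 2 * l ^ 2 by positivity) (ncs bΔ bE)
  have c3 := nrs (show 0 ≤ 4 * l ^ 4 by positivity) (ncs bγ bM)
  refine norm_add₃_le.trans ((add_le_add (add_le_add c1 c2) c3).trans ?_)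
  have p3 : Y ^ 3 ≤ Y ^ 9 := pow_le_pow_right₀ hY (by norm_num)
  have p4 : Y ^ 4 ≤ Y ^ 9 := pow_le_pow_right₀ hY (by norm_num)
  have l4 : l ^ 4 ≤ l ^ 3 := pow_le_pow_of_le_one hl.le h.hl1 (by norm_num)
  have q3 := mul_le_mul_of_nonneg_right p3 (show 0 ≤ l ^ 3 by positivity)
  have q4 := mul_le_mul_of_nonneg_right p4 (show 0 ≤ l ^ 3 by positivity)
  have q5 := mul_le_mul_of_nonneg_left l4 (show 0 ≤ Y ^ 4 by positivity)
  have q6 : 0 ≤ Y ^ 9 * l ^ 3 := by positivity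
  nlinarith

theorem norm_Nw {α : Type*} {μ : α →₀ ℝ} (hμ : IsLaw μ) {x : α → Op H}
    (hx : ∀ ω ∈ μ.support, x ω ∈ P ∧ star (x ω) = x ω) {Y l y yp m y' yp' m' a : ℝ}
    (h : Sp Y l y yp m) (h' : Sp Y l y' yp' m') (T : Tr P) {g : Op H →ₗ[ℂ] Op H} (hg : Bd P g)
    (ha : 0 ≤ a) (hZ : ∀ ξ, Ex μ (fun ω => ‖Zr T (x ω) y m ξ‖ ^ 2) ≤ a ^ 2 * ‖ξ‖ ^ 2)
    (hZ' : ∀ ξ, Ex μ (fun ω => ‖Zr T (x ω) y' m' ξ‖ ^ 2) ≤ a ^ 2 * ‖ξ‖ ^ 2) :
    ‖Ex μ fun ω => Nw T g (x ω) y m y' m'‖ ≤ 8 * Y ^ 4 * a := by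
  have hY := h.hY
  have hR : ∀ ω ∈ μ.support, res (x ω) y ∈ P := fun ω hω => res_mem (hx ω hω).1 (hx ω hω).2 h.y0
  have hb : ∀ ω ∈ μ.support, ‖res (x ω) y‖ ≤ Y := fun ω hω =>
    (norm_res (hx ω hω).2 h.y0).trans h.by1
  have hb' : ∀ ω ∈ μ.support, ‖res (x ω) y'‖ ≤ Y := fun ω hω =>
    (norm_res (hx ω hω).2 h'.y0).trans h'.by1
  have hg' : ∀ ω ∈ μ.support, ‖g (res (x ω) y)‖ ≤ Y := fun ω hω =>
    (hg.le (hR ω hω)).trans (hb ω hω)
  have c := fun ω hω => Zr_cen T (hx ω hω).1 (hx ω hω).2 h.y0 m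
  have c' := fun ω hω => Zr_cen T (hx ω hω).1 (hx ω hω).2 h'.y0 m'
  have a1 := hμ.cen_mul ha (by positivity) c hZ fun ω hω => nm2 (hb' ω hω) (hg' ω hω)
  have a2 := hμ.cen_mul ha (by positivity) c' hZ' fun ω hω => nm2 (hb' ω hω) (hg' ω hω)
  have a3 := hμ.cen_mul ha (by positivity) c' hZ' fun ω hω =>
    nm2 (nm2 (hb' ω hω) (hb' ω hω)) (hg' ω hω)
  have a4 := hμ.cen_in hg ha (B := Y * Y) (by positivity) (by positivity) c hZ
    (fun ω hω => ⟨mul_mem (hR ω hω) (hR ω hω), nm2 (hb ω hω) (hb ω hω)⟩) hb'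
  simp only [Nw, Ex_add, Ex_sub, Ex_csmul]
  have a5 := ncs (norm_Δ h.by3 h'.by3) ((norm_add_le _ _).trans (add_le_add a3 a4))
  refine (norm_add_le _ _).trans ((add_le_add ((norm_sub_le _ _).trans (add_le_add a1 a2))
    a5).trans ?_)
  have p2 : Y ^ 2 ≤ Y ^ 4 := pow_le_pow_right₀ hY (by norm_num)
  nlinarith [mul_le_mul_of_nonneg_left p2 ha]

end Crest.Agent.R121.H7
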