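import Crest.Agent.R121.H7.Walk

/-! Construction of the law of a new letter. -/

set_option autoImplicit false
set_option linter.unusedSectionVars false

open scoped InnerProductSpace

namespace Crest.Agent.R121.H7
open Crest.Agent.R124

variable {H : Type*} [NormedAddCommGroup H] [InnerProductSpace ℂ H] [CompleteSpace H]
variable {P : VonNeumannAlgebra H}

/-- Averaged conjugation. -/
noncomputable def Cj (μ : Op H →₀ ℝ) (b : Op H) : Op H := Ex μ fun u => star u * b * u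

theorem Cj_mem {μ : Op H →₀ ℝ} (hμ : ULaw P μ) {b : Op H} (hb : b ∈ P) : Cj μ b ∈ P :=
  Ex_memP fun u hu => mul_mem (mul_mem (hμ.uni u hu).star.1 hb) (hμ.uni u hu).1

theorem Uni.conj_sub {u : Op H} (hu : Uni P u) (b : Op H) {c : Op H} (hc : Cen P c) :
    ‖Star.star u * b * u - c‖ ≤ ‖b - c‖ := by
  have : Star.star u * b * u - c = Star.star u * (b - c) * u := by
    rw [mul_sub, sub_mul, mul_assoc _ c, hc.2 u hu.1, ← mul_assoc _ u, hu.2.1, one_mul]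
  rw [this]
  exact (hu.norm_mul_le' _).trans (hu.star.norm_mul_le _)

theorem Cj_sub {μ : Op H →₀ ℝ} (hμ : ULaw P μ) (b : Op H) {c : Op H} (hc : Cen P c) :
    ‖Cj μ b - c‖ ≤ ‖b - c‖ := by
  rw [Cj, ← hμ.toIsLaw.const c, ← Ex_sub, hμ.toIsLaw.const c]
  exact hμ.toIsLaw.norm_le fun u hu => (hμ.uni u hu).conj_sub b hc

theorem tau_Cj {μ : Op H →₀ ℝ} (hμ : ULaw P μ) (T : Tr P) {b : Op H} (hb : b ∈ P) :
    T.τ (Cj μ b) = T.τ b := by
  rw [Cj, Ex_lin, ← hμ.toIsLaw.const (T.τ b)]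
  refine Ex_congr fun u hu => ?_
  have hu := hμ.uni u hu
  rw [T.comm _ (mul_mem hu.star.1 hb) _ hu.1, ← mul_assoc, hu.2.2, one_mul]

theorem Cj_comp (ν μ : Op H →₀ ℝ) (b : Op H) :
    Ex ν (fun s => Ex μ fun x => star (s * x) * b * (s * x)) = Cj μ (Cj ν b) := by
  rw [Ex_comm]
  simp only [Cj, mul_Ex, Ex_mul, star_mul, mul_assoc]

theorem Cj_succ (ν : Op H →₀ ℝ) (j : ℕ) (b : Op H) :
    Cj (W ν (j + 1)) b = Cj (W ν j) (Cj ν b) := by
  rw [← Cj_comp, Cj, Ex_W_succ]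

/-- Mixture of two laws. -/
noncomputable def mix (t : ℝ) (ν μ : Op H →₀ ℝ) : Op H →₀ ℝ := (1 - t) • ν + t • μ

theorem Ex_mix {V : Type*} [AddCommGroup V] [Module ℝ V] (t : ℝ) (ν μ : Op H →₀ ℝ)
    (f : Op H → V) : Ex (mix t ν μ) f = (1 - t) • Ex ν f + t • Ex μ f := by
  rw [mix, Ex_add_law, Ex_smul_law, Ex_smul_law]

section Mix
variable {t : ℝ} {ν μ : Op H →₀ ℝ}

theorem ULaw.mix (hν : ULaw P ν) (hμ : ULaw P μ) (h0 : 0 ≤ t) (h1 : t ≤ 1) :
    ULaw P (mix t ν μ) := by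
  refine ⟨⟨fun a => add_nonneg (mul_nonneg (sub_nonneg.2 h1) (hν.nonneg a))
    (mul_nonneg h0 (hμ.nonneg a)), by rw [Ex_mix, hν.one, hμ.one]; simp⟩, fun u hu => ?_⟩
  by_cases h : u ∈ ν.support
  · exact hν.uni u h
  · refine hμ.uni u (Finsupp.mem_support_iff.2 fun h' => Finsupp.mem_support_iff.1 hu ?_)
    simp [H7.mix, Finsupp.notMem_support_iff.1 h, h']

theorem Sym.mix (hν : Sym ν) (hμ : Sym μ) : Sym (mix t ν μ) := fun f => by
  rw [Ex_mix, Ex_mix, hν f, hμ f]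

theorem support_mix (hν : ULaw P ν) (hμ : ULaw P μ) (h0 : 0 ≤ t) (h1 : t < 1) :
    ν.support ⊆ (mix t ν μ).support := fun u hu => by
  have h2 : 0 < ν u := lt_of_le_of_ne (hν.nonneg u) (Finsupp.mem_support_iff.1 hu).symm
  have h3 : 0 < (1 - t) * ν u + t * μ u :=
    add_pos_of_pos_of_nonneg (mul_pos (sub_pos.2 h1) h2) (mul_nonneg h0 (hμ.nonneg u))
  exact Finsupp.mem_support_iff.2 h3.ne'

theorem harm_mix (hν : ULaw P ν) (hμ : ULaw P μ) (h0 : 0 ≤ t) {g : Op H →ₗ[ℂ] Op H} (hg : Bd P g)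
    {η : ℝ} (h : Harm P (mix t ν μ) η g) : Harm P ν (η + 2 * t) g := fun x hx => by
  have b : ∀ {κ : Op H →₀ ℝ}, ULaw P κ → ‖Ex κ fun u => star u * g (u * x)‖ ≤ ‖x‖ := fun hκ =>
    hκ.toIsLaw.norm_le fun u hu => by
      have hu := hκ.uni u hu
      exact (hu.star.norm_mul_le _).trans ((hg.le (mul_mem hu.1 hx)).trans (hu.norm_mul_le x))
  have h1 := h x hx
  rw [Ex_mix] at h1
  have b1 := b hν
  have b2 := b hμ
  set A := Ex ν fun u => star u * g (u * x)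
  set B := Ex μ fun u => star u * g (u * x)
  have e : A - g x = ((1 - t) • A + t • B - g x) + t • (A - B) := by module
  rw [e]
  refine (norm_add_le _ _).trans ?_
  rw [norm_smul, Real.norm_of_nonneg h0]
  have := mul_le_mul_of_nonneg_left ((norm_sub_le A B).trans (add_le_add b1 b2)) h0
  linarith

theorem dix_walk (hν : ULaw P ν) (hμ : ULaw P μ) (h0 : 0 ≤ t) (h1 : t ≤ 1) {c : Op H}
    (hc : Cen P c) {ρ : ℝ} (hρ : 0 ≤ ρ) (n : ℕ) (b : Op H)
    (h : ∀ j < n, ‖Cj μ (Cj (W ν j) b) - c‖ ≤ ρ) :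
    ‖Cj (W (mix t ν μ) n) b - c‖ ≤ ρ + (1 - t) ^ n * ‖b - c‖ := by
  induction n generalizing b with
  | zero => simpa [Cj, Ex_W_zero] using hρ
  | succ n ih =>
    have hW := (hν.mix hμ h0 h1).W n
    have a1 := ih (Cj ν b) fun j hj => by rw [← Cj_succ]; exact h _ (by omega)
    have a2 : ‖Cj (W (mix t ν μ) n) (Cj μ b) - c‖ ≤ ρ :=
      (Cj_sub hW _ hc).trans (by simpa [Cj, Ex_W_zero] using h 0 (by omega))
    have a3 := mul_le_mul_of_nonneg_left (Cj_sub hν b hc) (pow_nonneg (sub_nonneg.2 h1) n)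
    have e : Cj (W (mix t ν μ) (n + 1)) b - c = (1 - t) • (Cj (W (mix t ν μ) n) (Cj ν b) - c) +
        t • (Cj (W (mix t ν μ) n) (Cj μ b) - c) := by
      rw [Cj, Ex_W_succ, Ex_mix, Cj_comp, Cj_comp]; module
    rw [e]
    refine (norm_add_le _ _).trans ?_
    rw [norm_smul, norm_smul, Real.norm_of_nonneg h0, Real.norm_of_nonneg (sub_nonneg.2 h1)]
    have a4 := mul_le_mul_of_nonneg_left (a1.trans (add_le_add le_rfl a3)) (sub_nonneg.2 h1)
    have a5 := mul_le_mul_of_nonneg_left a2 h0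
    rw [pow_succ]; nlinarith

/-- The letters are almost orthogonal to everything. -/
def Small (P : VonNeumannAlgebra H) (T : Tr P) (μ : Op H →₀ ℝ) (ρ : ℝ) : Prop :=
  ∀ b ∈ P, ∀ ξ : H, Ex μ (fun u => ‖T.τ (b * u) ξ‖ ^ 2) ≤ ρ * (‖b‖ ^ 2 * ‖ξ‖ ^ 2)

theorem Small.conv {T : Tr P} {ρ : ℝ} (hμ : ULaw P μ) (hν : ULaw P ν) (hρ : 0 ≤ ρ)
    (h : Small P T μ ρ) {b : Op H} (hb : b ∈ P) (ξ : H) :
    Ex μ (fun s => Ex ν fun x => ‖T.τ (b * (s * x)) ξ‖ ^ 2) ≤ ρ * (‖b‖ ^ 2 * ‖ξ‖ ^ 2) := by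
  rw [Ex_comm]
  refine hν.toIsLaw.le fun x hx => ?_
  have hx := hν.uni x hx
  rw [Ex_congr (g := fun s => ‖T.τ (x * b * s) ξ‖ ^ 2) fun s hs => by
    rw [← mul_assoc, T.comm _ (mul_mem hb (hμ.uni s hs).1) _ hx.1, mul_assoc]]
  refine (h _ (mul_mem hx.1 hb) ξ).trans ?_
  have := hx.norm_mul_le b
  gcongr

theorem small_walk (hν : ULaw P ν) (hμ : ULaw P μ) (h0 : 0 ≤ t) (h1 : t ≤ 1) {T : Tr P} {ρ : ℝ}
    (hρ : 0 ≤ ρ) (h : Small P T μ ρ) (n : ℕ) :
    Small P T (W (mix t ν μ) n) (ρ + (1 - t) ^ n) := by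
  induction n with
  | zero =>
    intro b hb ξ
    rw [Ex_W_zero, mul_one, ← mul_pow]
    have := pow_le_pow_left₀ (norm_nonneg _) (nap (T.norm_le b hb) (le_refl ‖ξ‖)) 2
    nlinarith [sq_nonneg (‖b‖ * ‖ξ‖)]
  | succ n ih =>
    intro b hb ξ
    have hW := (hν.mix hμ h0 h1).W n
    have hp := pow_nonneg (sub_nonneg.2 h1) n
    have a1 : Ex ν (fun s => Ex (W (mix t ν μ) n) fun x => ‖T.τ (b * (s * x)) ξ‖ ^ 2) ≤
        (ρ + (1 - t) ^ n) * (‖b‖ ^ 2 * ‖ξ‖ ^ 2) := hν.toIsLaw.le fun s hs => by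
      have hs := hν.uni s hs
      simp only [← mul_assoc b]
      refine (ih _ (mul_mem hb hs.1) ξ).trans ?_
      have := hs.norm_mul_le' b
      gcongr
    have a2 := h.conv hμ hW hρ hb ξ
    rw [Ex_W_succ, Ex_mix, smul_eq_mul, smul_eq_mul]
    have a4 := mul_le_mul_of_nonneg_left a1 (sub_nonneg.2 h1)
    have a5 := mul_le_mul_of_nonneg_left a2 h0
    rw [pow_succ]; nlinarith

end Mix

theorem exists_letter (hP : NoAbel P) (T : CTr P) (F : Finset (Op H)) (hF : ∀ a ∈ F, a ∈ P)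
    {ρ : ℝ} (hρ : 0 < ρ) : ∃ μ, ULaw P μ ∧ Sym μ ∧ (∀ a ∈ F, ‖Cj μ a - T.τ a‖ ≤ ρ) ∧
      Small P T.toTr μ ρ := by
  obtain ⟨n, d, hd, hdix⟩ := T.dix F hF ρ hρ
  obtain ⟨m, v, hv, hsm⟩ := exists_sym P hP T.toTr hρ
  have hd' : ∀ i, Uni P (d i) := hd
  have hv' : ∀ k, Uni P (v k) := fun k =>
    ⟨(hv k).1, by rw [(hv k).2.1, (hv k).2.2], by rw [(hv k).2.1, (hv k).2.2]⟩
  refine ⟨av fun j => av fun k => av fun i => Finsupp.single (star (d i) * v k * d j) 1,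
    ulaw_av fun j => ulaw_av fun k => ulaw_av fun i =>
      ulaw_single (((hd' i).star.mul (hv' k)).mul (hd' j)), fun f => ?_, fun a ha => ?_,
    fun b hb ξ => ?_⟩
  · simp only [Ex_av_law, Ex_single, star_mul, star_star, (hv _).2.1, mul_assoc]
    rw [av_comm]
    conv_rhs => rw [av_comm]
    exact congrArg av (funext fun k => av_comm _)
  · have hc := T.cen a (hF a ha)
    simp only [Cj, Ex_av_law, Ex_single]
    rw [← av_const (ι := Fin (n + 1)) (T.τ a), ← av_sub]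
    refine norm_av_le hρ.le fun j => ?_
    rw [← av_const (ι := Fin (m + 1)) (T.τ a), ← av_sub]
    refine norm_av_le hρ.le fun k => ?_
    have e : av (fun i => star (star (d i) * v k * d j) * a * (star (d i) * v k * d j)) =
        star (v k * d j) * av (fun i => d i * a * star (d i)) * (v k * d j) := by
      simp only [mul_av, av_mul, star_mul, star_star, mul_assoc]
    rw [e]
    exact (((hv' k).mul (hd' j)).conj_sub _ hc).trans (hdix a ha)
  · simp only [Ex_av_law, Ex_single]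
    refine av_le (by positivity) fun j => ?_
    rw [av_comm]
    refine av_le (by positivity) fun i => ?_
    have hy : d j * b * star (d i) ∈ P := mul_mem (mul_mem (hd j).1 hb) (hd' i).star.1
    have e : ∀ k, T.τ (b * (star (d i) * v k * d j)) = T.τ (v k * (d j * b * star (d i))) :=
      fun k => by
        rw [mul_assoc (star (d i)), ← mul_assoc b,
          T.comm _ (mul_mem hb (hd' i).star.1) _ (mul_mem (hv k).1 (hd j).1)]
        simp only [mul_assoc]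
    simp only [e]
    refine (av_norm_sq_le _ ξ).trans ?_
    rw [← mul_assoc]
    refine mul_le_mul_of_nonneg_right ((hsm _ hy).trans ?_) (by positivity)
    have := ((hd' i).star.norm_mul_le' (d j * b)).trans ((hd' j).norm_mul_le b)
    gcongr

theorem mod_finset {ν : Op H →₀ ℝ} (F : Finset (Op H)) (hF : ∀ y ∈ F, Mod P ν y) {ρ : ℝ}
    (hρ : 0 < ρ) : ∃ (N₀ : ℕ) (η : ℝ), 0 < η ∧ ∀ N ≥ N₀, ∀ y ∈ F, ∀ n g x ξ, Tst P ν η g x ξ →
    Ex (Wav ν n N) (fun u => ‖(g (y * (u * x)) - y * g (u * x)) ξ‖) ≤ ρ := by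
  classical
  induction F using Finset.induction_on with
  | empty => exact ⟨0, 1, one_pos, by simp⟩
  | insert a F _ ih =>
    obtain ⟨N₁, η₁, h₁, H₁⟩ := ih fun y hy => hF y (Finset.mem_insert_of_mem hy)
    obtain ⟨N₂, η₂, h₂, H₂⟩ := hF a (Finset.mem_insert_self _ _) ρ hρ
    refine ⟨max N₁ N₂, min η₁ η₂, lt_min h₁ h₂, fun N hN y hy n g x ξ h => ?_⟩
    rcases Finset.mem_insert.1 hy with rfl | hy
    · exact H₂ N (le_of_max_le_right hN) n g x ξ (h.mono (min_le_right _ _))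
    · exact H₁ N (le_of_max_le_left hN) y hy n g x ξ (h.mono (min_le_left _ _))

/-- The properties of the law `lam` of a new letter. -/
structure Good (P : VonNeumannAlgebra H) (T : Tr P) (F : Finset (Op H)) (ρ : ℝ)
    (ν lam : Op H →₀ ℝ) (η : ℝ) : Prop where
  law : ULaw P lam
  sym : Sym lam
  alg : ∀ u ∈ lam.support, u ∈ Alg ν
  dix : ∀ a ∈ F, ‖Cj lam a - T.τ a‖ ≤ ρ
  small : Small P T lam ρ
  rule : ∀ y ∈ F, ∀ w ∈ F, ∀ g x ξ, Tst P ν η g x ξ →
    ‖Ex lam (fun u => (star u * (w * g (y * (u * x)))) ξ) - (T.τ (w * y) * g x) ξ‖ ≤ ρ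

/-- `ν'` is a small perturbation of `ν`. -/
structure Pert (P : VonNeumannAlgebra H) (ν ν' : Op H →₀ ℝ) (t : ℝ) : Prop where
  law : ULaw P ν'
  sym : Sym ν'
  supp : ν.support ⊆ ν'.support
  harm : ∀ g η, Bd P g → Harm P ν' η g → Harm P ν (η + t) g

theorem step (hP : NoAbel P) (T : CTr P) {ν : Op H →₀ ℝ} (hν : ULaw P ν) (hs : Sym ν)
    (F : Finset (Op H)) (hF : ∀ a ∈ F, a ∈ Alg ν) {ρ t₀ : ℝ} (hρ : 0 < ρ) (ht₀ : 0 < t₀) :
    ∃ ν' lam η, Pert P ν ν' t₀ ∧ 0 < η ∧ Good P T.toTr F ρ ν' lam η := by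
  classical
  have hFP : ∀ a ∈ F, a ∈ P := fun a ha => Alg.memP hν (hF a ha)
  let F2 := F ∪ (F ×ˢ F).image fun p => p.1 * p.2
  have hF2 : ∀ a ∈ F2, a ∈ P := fun a ha => by
    rcases Finset.mem_union.1 ha with ha | ha
    · exact hFP a ha
    · obtain ⟨p, hp, rfl⟩ := Finset.mem_image.1 ha
      exact mul_mem (hFP _ (Finset.mem_product.1 hp).1) (hFP _ (Finset.mem_product.1 hp).2)
  obtain ⟨Y, hY1, hY⟩ : ∃ Y : ℝ, 1 ≤ Y ∧ ∀ a ∈ F2, ‖a‖ ≤ Y :=
    ⟨1 + ∑ a ∈ F2, ‖a‖, le_add_of_nonneg_right (Finset.sum_nonneg fun _ _ => norm_nonneg _),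
      fun a ha => (Finset.single_le_sum (f := fun a => ‖a‖) (fun _ _ => norm_nonneg _) ha).trans
        (by linarith)⟩
  set t := min (t₀ / 2) (1 / 2) with ht
  have t0 : 0 < t := lt_min (by positivity) (by norm_num)
  have t1 : t < 1 := (min_le_right _ _).trans_lt (by norm_num)
  set r := ρ / (12 * Y) with hr
  have r0 : 0 < r := by positivity
  have rY : r * Y = ρ / 12 := by rw [hr]; field_simp
  have r1 : r ≤ ρ / 12 := by nlinarith
  obtain ⟨n, hn⟩ := exists_pow_lt_of_lt_one r0 (show 1 - t < 1 by linarith)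
  obtain ⟨μ, hμ, hμs, hdix, hsm⟩ := exists_letter hP T
    ((Finset.range n ×ˢ F2).image fun p => Cj (W ν p.1) p.2) (fun a ha => by
      obtain ⟨p, hp, rfl⟩ := Finset.mem_image.1 ha
      exact Cj_mem (hν.W _) (hF2 _ (Finset.mem_product.1 hp).2)) r0
  have hν' := hν.mix hμ t0.le t1.le
  have hs' : Sym (mix t ν μ) := hs.mix hμs
  have hsupp := support_mix hν hμ t0.le t1
  obtain ⟨N₁, η₁, h₁, H₁⟩ := mod_finset (P := P) F
    (fun y hy => mod_of_alg hν' hs' (Alg.mono hsupp (hF y hy))) r0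
  obtain ⟨N₂, η₂, h₂, H₂⟩ := mart1 hν' n r0
  set N := max N₁ N₂
  have key : ∀ a ∈ F2, ‖Cj (W (mix t ν μ) n) a - T.τ a‖ ≤ ρ / 4 := fun a ha => by
    have a1 := dix_walk hν hμ t0.le t1.le (T.cen a (hF2 a ha)) r0.le n a fun j hj => by
      have := hdix _ (Finset.mem_image.2 ⟨(j, a), Finset.mem_product.2
        ⟨Finset.mem_range.2 hj, ha⟩, rfl⟩)
      rwa [tau_Cj (hν.W j) T.toTr (hF2 a ha)] at this
    have a2 : ‖a - T.τ a‖ ≤ Y + Y := (norm_sub_le _ _).trans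
      (add_le_add (hY a ha) ((T.norm_le a (hF2 a ha)).trans (hY a ha)))
    have a3 := mul_le_mul hn.le a2 (norm_nonneg _) r0.le
    linarith
  refine ⟨mix t ν μ, Wav (mix t ν μ) n N, min (min η₁ η₂) (r / (N + 1)),
    ⟨hν', hs', hsupp, fun g η hg h => (harm_mix hν hμ t0.le hg h).mono ?_⟩,
    lt_min (lt_min h₁ h₂) (by positivity), hν'.Wav _ _, hs'.Wav _ _, Alg.Wav _ _, fun a ha => ?_,
    fun b hb ξ => ?_, fun y hy w hw g x ξ h => ?_⟩
  · linarith [min_le_left (t₀ / 2) (1 / 2)]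
  · have e := Ex_Wav_add (mix t ν μ) n 0 N fun u => star u * a * u
    rw [add_zero, Cj_comp] at e
    rw [Cj, e]
    refine (Cj_sub (hν'.Wav _ _) _ (T.cen a (hFP a ha))).trans
      ((key a (Finset.mem_union_left _ ha)).trans (by linarith))
  · have e := Ex_Wav_add (mix t ν μ) n 0 N fun u => ‖T.τ (b * u) ξ‖ ^ 2
    rw [add_zero] at e
    rw [e]
    have hp := pow_nonneg (sub_nonneg.2 t1.le) n
    refine ((small_walk hν hμ t0.le t1.le r0.le hsm n).conv (hν'.W n) (hν'.Wav _ _)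
      (by positivity) hb ξ).trans (mul_le_mul_of_nonneg_right (by linarith) (by positivity))
  · have hwy : w * y ∈ F2 := Finset.mem_union_right _
      (Finset.mem_image.2 ⟨(w, y), Finset.mem_product.2 ⟨hw, hy⟩, rfl⟩)
    have hη : 0 < min (min η₁ η₂) (r / (N + 1)) := lt_min (lt_min h₁ h₂) (by positivity)
    have a1 := rule hν' hη.le h (T.cen _ (hF2 _ hwy))
      (H₁ N (le_max_left _ _) y hy n g x ξ (h.mono ((min_le_left _ _).trans (min_le_left _ _))))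
      (H₂ N (le_max_right _ _) 0 g x ξ (h.mono ((min_le_left _ _).trans (min_le_right _ _))))
      (key _ hwy)
    have a2 : (N : ℝ) * min (min η₁ η₂) (r / (N + 1)) ≤ r := by
      refine (mul_le_mul_of_nonneg_left (min_le_right _ _) (by positivity)).trans ?_
      rw [← mul_div_assoc, div_le_iff₀ (by positivity)]; nlinarith
    have b1 := mul_le_mul_of_nonneg_right (hY w (Finset.mem_union_left _ hw)) r0.le
    have b2 := mul_le_mul_of_nonneg_right (hY _ hwy) r0.le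
    have b3 := mul_le_mul ((T.norm_le _ (hF2 _ hwy)).trans (hY _ hwy)) a2 (by positivity)
      (by positivity)
    nlinarith

end Crest.Agent.R121.H7
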