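import Crest.Agent.R121.H7.Law

/-! Martingale estimates along a random walk of unitaries. -/

set_option autoImplicit false
set_option linter.unusedSectionVars false

open scoped InnerProductSpace

namespace Crest.Agent.R121.H7
open Crest.Agent.R124

variable {H : Type*} [NormedAddCommGroup H] [InnerProductSpace ℂ H] [CompleteSpace H]
variable {P : VonNeumannAlgebra H}

/-! ### Symmetric laws -/

/-- Laws invariant under the adjoint. -/
def Sym (ν : Op H →₀ ℝ) : Prop := ∀ f : Op H → ℝ, Ex ν (fun u => f (star u)) = Ex ν f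

theorem Ex_pure {α : Type*} (ν : α →₀ ℝ) : Ex ν (fun u => Finsupp.single u (1 : ℝ)) = ν := by
  simp only [Ex, Finsupp.smul_single, smul_eq_mul, mul_one]
  exact Finsupp.sum_single ν

theorem Sym.ex {ν : Op H →₀ ℝ} (h : Sym ν) {V : Type*} [AddCommGroup V] [Module ℝ V]
    (f : Op H → V) : Ex ν (fun u => f (star u)) = Ex ν f := by
  have e : Ex ν (fun u => Finsupp.single (star u) (1 : ℝ)) = ν := by
    ext b
    rw [Ex_apply_law, h fun u => Finsupp.single u (1 : ℝ) b, ← Ex_apply_law, Ex_pure]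
  conv_rhs => rw [← e, Ex_bind]
  simp only [Ex_single]

theorem Sym.mem {ν : Op H →₀ ℝ} (h : Sym ν) {u : Op H} (hu : u ∈ ν.support) :
    star u ∈ ν.support := by
  classical
  have e : ∀ b, Ex ν (fun w => Finsupp.single w (1 : ℝ) b) = ν b := fun b => by
    rw [← Ex_apply_law, Ex_pure]
  have h1 := h fun w => Finsupp.single w (1 : ℝ) (star u)
  rw [e] at h1
  simp only [Finsupp.single_apply, star_inj] at h1
  have h2 := e u
  simp only [Finsupp.single_apply] at h2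
  rw [Finsupp.mem_support_iff, ← h1, h2]
  exact Finsupp.mem_support_iff.1 hu

theorem Sym.W {ν : Op H →₀ ℝ} (h : Sym ν) (j : ℕ) : Sym (W ν j) := by
  induction j with
  | zero => intro f; simp [Ex_W_zero]
  | succ j ih =>
    intro f
    rw [Ex_W_succ, Ex_W_succ', Ex_comm]
    simp only [star_mul]
    rw [← ih fun x => Ex ν fun s => f (x * s)]
    exact congrArg _ (funext fun x => h fun s => f (star x * s))

/-- The walk stopped at a uniform time in `[n, n + N]`. -/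
noncomputable def Wav (ν : Op H →₀ ℝ) (n N : ℕ) : Op H →₀ ℝ :=
  av fun j : Fin (N + 1) => W ν (n + j)

theorem ULaw.Wav {ν : Op H →₀ ℝ} (h : ULaw P ν) (n N : ℕ) : ULaw P (Wav ν n N) :=
  ulaw_av fun _ => h.W _

theorem Sym.Wav {ν : Op H →₀ ℝ} (h : Sym ν) (n N : ℕ) : Sym (Wav ν n N) := fun f => by
  simp only [H7.Wav, Ex_av_law, h.W _ f]

theorem Ex_Wav_add {V : Type*} [AddCommGroup V] [Module ℝ V] (ν : Op H →₀ ℝ) (a n N : ℕ)
    (f : Op H → V) :
    Ex (Wav ν (a + n) N) f = Ex (W ν a) fun s => Ex (Wav ν n N) fun x => f (s * x) := by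
  simp only [Wav, Ex_av_law, Ex_av, add_assoc, Ex_W_add ν a]

theorem Harm.Wav {ν : Op H →₀ ℝ} (hν : ULaw P ν) {η : ℝ} (hη : 0 ≤ η) {g : Op H →ₗ[ℂ] Op H}
    (h : Harm P ν η g) (N : ℕ) : Harm P (Wav ν 0 N) (N * η) g := fun x hx => by
  rw [H7.Wav, Ex_av_law, ← av_const (ι := Fin (N + 1)) (g x), ← av_sub]
  refine norm_av_le (by positivity) fun j => (h.W hν hη _ x hx).trans ?_
  have : ((0 + j : ℕ) : ℝ) ≤ N := by exact_mod_cast (by omega : 0 + (j : ℕ) ≤ N)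
  gcongr

/-! ### The martingale -/

/-- Test data. -/
structure Tst (P : VonNeumannAlgebra H) (ν : Op H →₀ ℝ) (η : ℝ) (g : Op H →ₗ[ℂ] Op H) (x : Op H)
    (ξ : H) : Prop where
  bd : Bd P g
  harm : Harm P ν η g
  mem : x ∈ P
  nx : ‖x‖ ≤ 1
  nξ : ‖ξ‖ ≤ 1

theorem nap {a : Op H} {x : H} {α β : ℝ} (ha : ‖a‖ ≤ α) (hx : ‖x‖ ≤ β) : ‖a x‖ ≤ α * β :=
  (a.le_opNorm x).trans (mul_le_mul ha hx (norm_nonneg _) ((norm_nonneg _).trans ha))

theorem Tst.mono {ν : Op H →₀ ℝ} {η η' : ℝ} {g : Op H →ₗ[ℂ] Op H} {x : Op H} {ξ : H}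
    (h : Tst P ν η g x ξ) (hη : η ≤ η') : Tst P ν η' g x ξ :=
  ⟨h.bd, h.harm.mono hη, h.mem, h.nx, h.nξ⟩

theorem Tst.uni {ν : Op H →₀ ℝ} {η : ℝ} {g : Op H →ₗ[ℂ] Op H} {x : Op H} {ξ : H}
    (h : Tst P ν η g x ξ) {u : Op H} (hu : Uni P u) : Tst P ν η g (u * x) ξ :=
  ⟨h.bd, h.harm, mul_mem hu.1 h.mem, (hu.norm_mul_le x).trans h.nx, h.nξ⟩

theorem Tst.norm_le {ν : Op H →₀ ℝ} {η : ℝ} {g : Op H →ₗ[ℂ] Op H} {x : Op H} {ξ : H}
    (h : Tst P ν η g x ξ) : ‖g x ξ‖ ≤ 1 := by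
  simpa using nap ((h.bd.le h.mem).trans h.nx) h.nξ

theorem mart_step {μ : Op H →₀ ℝ} (hμ : ULaw P μ) {η : ℝ} (hη : 0 ≤ η) {g : Op H →ₗ[ℂ] Op H}
    {x : Op H} {ξ : H} (h : Tst P μ η g x ξ) :
    Ex μ (fun s => ‖(g (s * x) - s * g x) ξ‖ ^ 2) ≤
      Ex μ (fun s => ‖g (s * x) ξ‖ ^ 2) - ‖g x ξ‖ ^ 2 + 2 * η := by
  have e : Ex μ (fun s => ‖(g (s * x) - s * g x) ξ‖ ^ 2) =
      Ex μ (fun s => ‖g (s * x) ξ‖ ^ 2 + ‖g x ξ‖ ^ 2 -
        2 * (⟪g x ξ, (star s * g (s * x)) ξ⟫_ℂ).re) := Ex_congr fun s hs => by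
    have hs := hμ.uni s hs
    change ‖g (s * x) ξ - s (g x ξ)‖ ^ 2 = _
    rw [norm_sub_sq (𝕜 := ℂ), hs.norm_apply, mul_apply_eq_comp,
      ContinuousLinearMap.star_eq_adjoint, ContinuousLinearMap.adjoint_inner_right,
      inner_re_symm]
    simp only [RCLike.re_to_complex]; ring
  rw [e, Ex_sub, Ex_add, hμ.toIsLaw.const, Ex_const_mul, ← re_Ex, ← inner_Ex, ← Ex_apply]
  have h1 := h.harm x h.mem
  set A := Ex μ fun s => star s * g (s * x)
  have h2 : ‖⟪g x ξ, (A - g x) ξ⟫_ℂ‖ ≤ η := by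
    refine (norm_inner_le_norm _ _).trans ?_
    have h3 : ‖(A - g x) ξ‖ ≤ η * 1 := nap (h1.trans (mul_le_of_le_one_right hη h.nx)) h.nξ
    have := mul_le_mul h.norm_le h3 (norm_nonneg _) zero_le_one
    linarith
  have h4 : (⟪g x ξ, (A - g x) ξ⟫_ℂ).re = (⟪g x ξ, A ξ⟫_ℂ).re - ‖g x ξ‖ ^ 2 := by
    change (⟪g x ξ, A ξ - g x ξ⟫_ℂ).re = _
    rw [inner_sub_right, Complex.sub_re, ← inner_self_eq_norm_sq (𝕜 := ℂ)]; rfl
  have h5 := (Complex.abs_re_le_norm _).trans h2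
  rw [h4, abs_le] at h5
  linarith [h5.1]

theorem tele {V : ℕ → ℝ} (h0 : ∀ j, 0 ≤ V j) (h1 : ∀ j, V j ≤ 1) (a n N : ℕ) :
    ∑ j ∈ Finset.range N, (V (a + (n + j)) - V (n + j)) ≤ a := by
  induction a with
  | zero => simp
  | succ a ih =>
    have e := Finset.sum_range_sub (fun j => V (a + (n + j))) N
    have e2 : ∑ j ∈ Finset.range N, (V (a + 1 + (n + j)) - V (n + j)) =
        ∑ j ∈ Finset.range N, (V (a + (n + (j + 1))) - V (a + (n + j))) +
          ∑ j ∈ Finset.range N, (V (a + (n + j)) - V (n + j)) := by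
      rw [← Finset.sum_add_distrib]
      refine Finset.sum_congr rfl fun j _ => ?_
      rw [show a + 1 + (n + j) = a + (n + (j + 1)) by ring]; ring
    rw [e2, e]
    have := h0 (a + (n + 0))
    have := h1 (a + (n + N))
    push_cast; linarith

theorem mart {ν : Op H →₀ ℝ} (hν : ULaw P ν) {η : ℝ} (hη : 0 ≤ η) {g : Op H →ₗ[ℂ] Op H}
    {x : Op H} {ξ : H} (h : Tst P ν η g x ξ) (a n N : ℕ) :
    Ex (W ν a) (fun s => Ex (Wav ν n N) fun u => ‖(g (s * (u * x)) - s * g (u * x)) ξ‖ ^ 2) ≤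
      a / (N + 1) + 2 * (a * η) := by
  let V : ℕ → ℝ := fun j => Ex (W ν j) fun u => ‖g (u * x) ξ‖ ^ 2
  have h0 : ∀ j, 0 ≤ V j := fun j => (hν.W j).toIsLaw.ex_nonneg fun _ _ => by positivity
  have h1 : ∀ j, V j ≤ 1 := fun j => (hν.W j).toIsLaw.le fun u hu =>
    pow_le_one₀ (norm_nonneg _) (h.uni ((hν.W j).uni u hu)).norm_le
  have h2 : ∀ j, Ex (W ν j) (fun u => Ex (W ν a) fun s =>
      ‖(g (s * (u * x)) - s * g (u * x)) ξ‖ ^ 2) ≤ V (a + j) - V j + 2 * (a * η) := fun j => by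
    refine ((hν.W j).toIsLaw.mono fun u hu => mart_step (hν.W a) (η := a * η) (by positivity)
      (g := g) (x := u * x) (ξ := ξ) ?_).trans (le_of_eq ?_)
    · have := h.uni ((hν.W j).uni u hu)
      exact ⟨h.bd, h.harm.W hν hη a, this.mem, this.nx, h.nξ⟩
    · rw [Ex_add, Ex_sub, (hν.W j).toIsLaw.const, Ex_comm]
      simp only [V, Ex_W_add, mul_assoc]
  rw [Ex_comm, Wav, Ex_av_law]
  refine (av_mono fun j : Fin (N + 1) => h2 (n + j)).trans ?_
  rw [av_add, av_const, av, Fintype.card_fin, smul_eq_mul,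
    Fin.sum_univ_eq_sum_range (fun j => V (a + (n + j)) - V (n + j))]
  have := tele h0 h1 a n (N + 1)
  rw [div_eq_inv_mul]
  push_cast
  gcongr

theorem le_am {t ρ : ℝ} (hρ : 0 < ρ) : t ≤ ρ + t ^ 2 / ρ := by
  rw [← sub_nonneg]
  have : ρ + t ^ 2 / ρ - t = ((ρ - t) ^ 2 + ρ * t) / ρ := by field_simp; ring
  rw [this]
  exact div_nonneg (by nlinarith [sq_nonneg (ρ - t), sq_nonneg t, sq_nonneg ρ]) hρ.le

/-- First moment version. -/
theorem mart1 {ν : Op H →₀ ℝ} (hν : ULaw P ν) (a : ℕ) {ρ : ℝ} (hρ : 0 < ρ) :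
    ∃ (N₀ : ℕ) (η : ℝ), 0 < η ∧ ∀ N ≥ N₀, ∀ n g x ξ, Tst P ν η g x ξ →
      Ex (W ν a) (fun s => Ex (Wav ν n N) fun u => ‖(g (s * (u * x)) - s * g (u * x)) ξ‖) ≤ ρ := by
  obtain ⟨N₀, hN⟩ := exists_nat_ge (8 * a / ρ ^ 2)
  refine ⟨N₀, ρ ^ 2 / (16 * (a + 1)), by positivity, fun N hN' n g x ξ h => ?_⟩
  have h1 := mart hν (by positivity) h a n N
  have hρ2 : 0 < ρ / 2 := by positivity
  refine ((hν.W a).toIsLaw.mono fun s _ => (hν.Wav n N).toIsLaw.mono fun u _ =>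
    le_am hρ2).trans ?_
  simp only [Ex_add, (hν.W a).toIsLaw.const, (hν.Wav n N).toIsLaw.const, div_eq_mul_inv _ (ρ / 2),
    Ex_mul_const]
  have h2 : (a : ℝ) / (N + 1) ≤ ρ ^ 2 / 8 := by
    rw [div_le_iff₀ (by positivity)] at hN ⊢
    have : (N₀ : ℝ) ≤ N := by exact_mod_cast hN'
    nlinarith [sq_nonneg ρ]
  have h3 : 2 * (a * (ρ ^ 2 / (16 * (a + 1)))) ≤ ρ ^ 2 / 8 := by
    rw [← mul_div_assoc, ← mul_div_assoc, div_le_div_iff₀ (by positivity) (by positivity)]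
    nlinarith [sq_nonneg ρ]
  have h4 := mul_le_mul_of_nonneg_right (h1.trans (add_le_add h2 h3)) (inv_pos.2 hρ2).le
  have h5 : (ρ ^ 2 / 8 + ρ ^ 2 / 8) * (ρ / 2)⁻¹ = ρ / 2 := by field_simp; ring
  linarith

/-! ### Asymptotic modularity -/

/-- Asymptotic left modularity with respect to `y`. -/
def Mod (P : VonNeumannAlgebra H) (ν : Op H →₀ ℝ) (y : Op H) : Prop :=
  ∀ ρ > 0, ∃ (N₀ : ℕ) (η : ℝ), 0 < η ∧ ∀ N ≥ N₀, ∀ n g x ξ, Tst P ν η g x ξ →
    Ex (Wav ν n N) (fun u => ‖(g (y * (u * x)) - y * g (u * x)) ξ‖) ≤ ρ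

/-- The closed star algebra generated by the letters. -/
noncomputable def Alg (ν : Op H →₀ ℝ) : StarSubalgebra ℂ (Op H) :=
  (StarAlgebra.adjoin ℂ (ν.support : Set (Op H))).topologicalClosure

theorem Alg.mono {ν μ : Op H →₀ ℝ} (h : ν.support ⊆ μ.support) : Alg ν ≤ Alg μ :=
  StarSubalgebra.topologicalClosure_mono (StarAlgebra.adjoin_mono (Finset.coe_subset.2 h))

theorem Alg.letter {ν : Op H →₀ ℝ} {u : Op H} (h : u ∈ ν.support) : u ∈ Alg ν :=
  StarSubalgebra.le_topologicalClosure _ (StarAlgebra.subset_adjoin ℂ _ h)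

theorem Alg.memP {ν : Op H →₀ ℝ} (hν : ULaw P ν) {u : Op H} (h : u ∈ Alg ν) : u ∈ P :=
  StarSubalgebra.topologicalClosure_minimal (t := P.toStarSubalgebra)
    (StarAlgebra.adjoin_le fun v hv => (hν.uni v hv).1) (isClosed_vn P) h

theorem Alg.W {ν : Op H →₀ ℝ} (j : ℕ) : ∀ u ∈ (W ν j).support, u ∈ Alg ν := by
  induction j with
  | zero =>
    intro u hu
    rw [Finset.mem_singleton.1 (Finsupp.support_single_subset hu)]
    exact one_mem _
  | succ j ih =>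
    intro u hu
    obtain ⟨s, hs, x, hx, rfl⟩ := mem_support_conv hu
    exact mul_mem (Alg.letter hs) (ih x hx)

theorem Alg.Wav {ν : Op H →₀ ℝ} (n N : ℕ) : ∀ u ∈ (Wav ν n N).support, u ∈ Alg ν := fun u hu => by
  obtain ⟨j, hj⟩ := mem_support_av hu
  exact Alg.W _ u hj

theorem Alg.res {ν : Op H →₀ ℝ} {x : Op H} (hx : x ∈ Alg ν) (hs : star x = x) {y : ℝ}
    (hy : y ≠ 0) : res x y ∈ Alg ν := by
  have hm : ((y : ℂ) * Complex.I) • (1 : Op H) - x ∈ Alg ν :=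
    sub_mem ((Alg ν).smul_mem (one_mem _) _) hx
  have : IsClosed (Alg ν : Set (Op H)) := StarSubalgebra.isClosed_topologicalClosure _
  obtain ⟨r, hr⟩ := ((StarSubalgebra.coe_isUnit (a := (⟨_, hm⟩ : Alg ν))).1
    (res_unit hs hy)).exists_left_inv
  rw [res_eq hs hy (r := r) (congrArg Subtype.val hr)]
  exact r.2

theorem mod_of_alg {ν : Op H →₀ ℝ} (hν : ULaw P ν) (hs : Sym ν) {y : Op H} (hy : y ∈ Alg ν) :
    Mod P ν y := by
  have hW := fun n N => (hν.Wav n N).toIsLaw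
  let S : Submodule ℂ (Op H) :=
    { carrier := {y | y ∈ P ∧ Mod P ν y}
      zero_mem' := ⟨zero_mem P, fun ρ hρ => ⟨0, 1, one_pos, fun N _ n g x ξ _ => by
        simpa [Ex_zero] using hρ.le⟩⟩
      add_mem' := fun {y z} hy hz => ⟨add_mem hy.1 hz.1, fun ρ hρ => by
        obtain ⟨N₁, η₁, h₁, H₁⟩ := hy.2 (ρ / 2) (by positivity)
        obtain ⟨N₂, η₂, h₂, H₂⟩ := hz.2 (ρ / 2) (by positivity)
        refine ⟨max N₁ N₂, min η₁ η₂, lt_min h₁ h₂, fun N hN n g x ξ h => ?_⟩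
        have a1 := H₁ N (le_of_max_le_left hN) n g x ξ (h.mono (min_le_left _ _))
        have a2 := H₂ N (le_of_max_le_right hN) n g x ξ (h.mono (min_le_right _ _))
        refine le_trans ((hW n N).mono fun u _ => ?_)
          (((Ex_add _ _ _).trans_le (add_le_add a1 a2)).trans_eq (add_halves ρ))
        refine le_trans (le_of_eq ?_) (norm_add_le _ _)
        rw [← add_apply, add_mul, add_mul, map_add]
        congr 2; abel⟩
      smul_mem' := fun c y hy => ⟨csmul_mem c hy.1, fun ρ hρ => by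
        obtain ⟨N₁, η₁, h₁, H₁⟩ := hy.2 (ρ / (‖c‖ + 1)) (by positivity)
        refine ⟨N₁, η₁, h₁, fun N hN n g x ξ h => ?_⟩
        have a1 := H₁ N hN n g x ξ h
        simp only [smul_mul_assoc, map_smul, ← smul_sub, smul_apply, norm_smul,
          Ex_const_mul]
        refine (mul_le_mul_of_nonneg_left a1 (norm_nonneg _)).trans ?_
        rw [← mul_div_assoc, div_le_iff₀ (by positivity)]
        nlinarith⟩ }
  have hSc : IsClosed (S : Set (Op H)) := by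
    refine isClosed_of_closure_subset fun y hy => ?_
    have hyP : y ∈ P := (isClosed_vn P).closure_subset (closure_mono (fun z hz => hz.1) hy)
    refine ⟨hyP, fun ρ hρ => ?_⟩
    obtain ⟨z, hz, hd⟩ := Metric.mem_closure_iff.1 hy (ρ / 4) (by positivity)
    rw [dist_eq_norm] at hd
    obtain ⟨N₁, η₁, h₁, H₁⟩ := hz.2 (ρ / 2) (by positivity)
    refine ⟨N₁, η₁, h₁, fun N hN n g x ξ h => ?_⟩
    have a1 := H₁ N hN n g x ξ h
    refine le_trans ((hW n N).mono (g := fun u =>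
      ‖(g (z * (u * x)) - z * g (u * x)) ξ‖ + ρ / 2) fun u hu => ?_) ?_
    · have hu := h.uni ((hν.Wav n N).uni u hu)
      have e : g (y * (u * x)) - y * g (u * x) = (g (z * (u * x)) - z * g (u * x)) +
          (g ((y - z) * (u * x)) - (y - z) * g (u * x)) := by
        rw [sub_mul, sub_mul, map_sub]; abel
      rw [e, add_apply]
      refine (norm_add_le _ _).trans (add_le_add le_rfl ?_)
      have b1 : ‖g ((y - z) * (u * x))‖ ≤ ρ / 4 * 1 :=
        (h.bd.le (mul_mem (sub_mem hyP hz.1) hu.mem)).trans (nm2 hd.le hu.nx)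
      have b2 : ‖(y - z) * g (u * x)‖ ≤ ρ / 4 * 1 := nm2 hd.le ((h.bd.le hu.mem).trans hu.nx)
      have := nap ((norm_sub_le _ _).trans (add_le_add b1 b2)) h.nξ
      linarith
    · rw [Ex_add, (hW n N).const]; linarith
  have hlet : ∀ r ∈ ν.support, ∀ y ∈ S, y * r ∈ S := fun r hr y hy => by
    have hrU := hν.uni r hr
    have hπ : 0 < ν r := lt_of_le_of_ne (hν.nonneg r) (Finsupp.mem_support_iff.1 hr).symm
    refine ⟨mul_mem hy.1 hrU.1, fun ρ hρ => ?_⟩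
    obtain ⟨N₁, η₁, h₁, H₁⟩ := hy.2 (ν r * (ρ / 2)) (by positivity)
    obtain ⟨N₂, η₂, h₂, H₂⟩ := mart1 hν 1 (ρ := ν r * (ρ / 2) / (‖y‖ + 1)) (by positivity)
    refine ⟨max N₁ N₂, min η₁ η₂, lt_min h₁ h₂, fun N hN n g x ξ h => ?_⟩
    have a1 := H₁ N (le_of_max_le_left hN) (1 + n) g x ξ (h.mono (min_le_left _ _))
    have a2 := H₂ N (le_of_max_le_right hN) n g x ξ (h.mono (min_le_right _ _))
    rw [Ex_Wav_add, Ex_W_one] at a1
    rw [Ex_W_one] at a2
    have b1 := (hν.toIsLaw.single_le (fun s _ => (hW n N).ex_nonneg fun _ _ => norm_nonneg _)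
      hr).trans a1
    have b2 := (hν.toIsLaw.single_le (fun s _ => (hW n N).ex_nonneg fun _ _ => norm_nonneg _)
      hr).trans a2
    rw [mul_div_assoc] at b2
    have c1 := le_of_mul_le_mul_left b1 hπ
    have c2 := le_of_mul_le_mul_left b2 hπ
    refine le_trans ((hW n N).mono (g := fun u => ‖(g (y * (r * u * x)) - y * g (r * u * x)) ξ‖ +
      ‖y‖ * ‖(g (r * (u * x)) - r * g (u * x)) ξ‖) fun u _ => ?_) ?_
    · have e : g (y * r * (u * x)) - y * r * g (u * x) = (g (y * (r * u * x)) - y * g (r * u * x)) +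
          y * (g (r * (u * x)) - r * g (u * x)) := by
        simp only [mul_sub, mul_assoc]; abel
      rw [e, add_apply]
      exact (norm_add_le _ _).trans (add_le_add le_rfl (y.le_opNorm _))
    · rw [Ex_add, Ex_const_mul]
      have c3 := mul_le_mul_of_nonneg_left c2 (norm_nonneg y)
      have c4 : ‖y‖ * (ρ / 2 / (‖y‖ + 1)) ≤ ρ / 2 := by
        rw [← mul_div_assoc, div_le_iff₀ (by positivity)]; nlinarith
      linarith
  let R : Subalgebra ℂ (Op H) :=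
    { carrier := {r | ∀ y ∈ S, y * r ∈ S}
      mul_mem' := fun {a b} ha hb y hy => by rw [← mul_assoc]; exact hb _ (ha y hy)
      add_mem' := fun {a b} ha hb y hy => by rw [mul_add]; exact add_mem (ha y hy) (hb y hy)
      algebraMap_mem' := fun c y hy => by
        rw [Algebra.algebraMap_eq_smul_one, mul_smul_comm, mul_one]; exact S.smul_mem c hy }
  have hRc : IsClosed (R : Set (Op H)) := by
    have : (R : Set (Op H)) = ⋂ y ∈ S, (fun r => y * r) ⁻¹' S := by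
      ext r; simp only [Set.mem_iInter]; rfl
    rw [this]
    exact isClosed_biInter fun y _ => hSc.preimage (continuous_const.mul continuous_id)
  have hle : (StarAlgebra.adjoin ℂ (ν.support : Set (Op H))).toSubalgebra ≤ R := by
    rw [StarAlgebra.adjoin_toSubalgebra, Algebra.adjoin_le_iff]
    rintro r (hr | hr)
    · exact hlet r hr
    · exact hlet r (by simpa using hs.mem hr)
  have h1 : (1 : Op H) ∈ S := ⟨one_mem P, fun ρ hρ => ⟨0, 1, one_pos, fun N _ n g x ξ _ => by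
    simpa [Ex_zero] using hρ.le⟩⟩
  have h2 : y ∈ R := hRc.closure_subset (closure_mono hle hy)
  simpa using (h2 1 h1).2

/-- The averaging rule. -/
theorem rule {ν : Op H →₀ ℝ} (hν : ULaw P ν) {η : ℝ} (hη : 0 ≤ η) {g : Op H →ₗ[ℂ] Op H}
    {x y w c : Op H} {ξ : H} (h : Tst P ν η g x ξ) (hc : Cen P c) {n N : ℕ} {ρ₁ ρ₂ ρ₃ : ℝ}
    (h1 : Ex (Wav ν n N) (fun u => ‖(g (y * (u * x)) - y * g (u * x)) ξ‖) ≤ ρ₁)
    (h2 : Ex (W ν n) (fun s => Ex (Wav ν 0 N) fun u =>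
      ‖(g (s * (u * x)) - s * g (u * x)) ξ‖) ≤ ρ₂)
    (h3 : ‖Ex (W ν n) (fun s => star s * (w * y) * s) - c‖ ≤ ρ₃) :
    ‖Ex (Wav ν n N) (fun u => (star u * (w * g (y * (u * x)))) ξ) - (c * g x) ξ‖ ≤
      ‖w‖ * ρ₁ + ‖w * y‖ * ρ₂ + ρ₃ + ‖c‖ * (N * η) := by
  have hA := hν.Wav n N
  have hB := hν.Wav 0 N
  have hC := hν.W n
  have s1 : ‖Ex (Wav ν n N) (fun u => (star u * (w * g (y * (u * x)))) ξ) -
      Ex (Wav ν n N) (fun u => (star u * (w * y * g (u * x))) ξ)‖ ≤ ‖w‖ * ρ₁ := by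
    rw [← Ex_sub]
    refine (hA.toIsLaw.norm_le_ex _).trans (le_trans (hA.toIsLaw.mono fun u hu => ?_)
      ((Ex_const_mul _ _ _).trans_le (mul_le_mul_of_nonneg_left h1 (norm_nonneg w))))
    rw [← sub_apply, ← mul_sub, mul_assoc, ← mul_sub, mul_apply_eq_comp,
      (hA.uni u hu).star.norm_apply]
    exact w.le_opNorm _
  have s2 : ‖Ex (Wav ν n N) (fun u => (star u * (w * y * g (u * x))) ξ) -
      Ex (W ν n) (fun s => Ex (Wav ν 0 N) fun u =>
        (star u * (star s * (w * y) * s * g (u * x))) ξ)‖ ≤ ‖w * y‖ * ρ₂ := by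
    have e := Ex_Wav_add ν n 0 N fun u => (star u * (w * y * g (u * x))) ξ
    rw [add_zero] at e
    rw [e, ← Ex_sub]
    refine (hC.toIsLaw.norm_le_ex _).trans (le_trans (hC.toIsLaw.mono fun s hs => ?_)
      ((Ex_const_mul _ _ _).trans_le (mul_le_mul_of_nonneg_left h2 (norm_nonneg (w * y)))))
    rw [← Ex_sub, ← Ex_const_mul]
    refine (hB.toIsLaw.norm_le_ex _).trans (hB.toIsLaw.mono fun u hu => ?_)
    have e2 : star (s * u) * (w * y * g (s * u * x)) - star u * (star s * (w * y) * s * g (u * x)) =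
        star u * (star s * (w * y * (g (s * (u * x)) - s * g (u * x)))) := by
      simp only [star_mul, mul_sub, mul_assoc]
    rw [← sub_apply, e2, mul_apply_eq_comp, (hB.uni u hu).star.norm_apply,
      mul_apply_eq_comp, (hC.uni s hs).star.norm_apply]
    exact (w * y).le_opNorm _
  have s3 : ‖Ex (W ν n) (fun s => Ex (Wav ν 0 N) fun u =>
        (star u * (star s * (w * y) * s * g (u * x))) ξ) -
      Ex (Wav ν 0 N) (fun u => (c * (star u * g (u * x))) ξ)‖ ≤ ρ₃ := by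
    rw [Ex_comm, ← Ex_sub]
    refine hB.toIsLaw.norm_le fun u hu => ?_
    have hu := hB.uni u hu
    rw [← Ex_apply, ← mul_Ex, ← Ex_mul, ← mul_assoc c, hc.2 _ hu.star.1, mul_assoc,
      ← sub_apply, ← mul_sub, ← sub_mul, mul_apply_eq_comp,
      hu.star.norm_apply, mul_apply_eq_comp]
    simpa using nap h3 (h.uni hu).norm_le
  have s4 : ‖Ex (Wav ν 0 N) (fun u => (c * (star u * g (u * x))) ξ) - (c * g x) ξ‖ ≤
      ‖c‖ * (N * η) := by
    rw [← Ex_apply, ← mul_Ex, ← sub_apply, ← mul_sub]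
    have := (h.harm.Wav hν hη N x h.mem).trans (mul_le_of_le_one_right (by positivity) h.nx)
    simpa using nap (nm2 le_rfl this) h.nξ
  have t1 := norm_sub_le_norm_sub_add_norm_sub
    (Ex (Wav ν n N) (fun u => (star u * (w * g (y * (u * x)))) ξ))
    (Ex (Wav ν n N) (fun u => (star u * (w * y * g (u * x))) ξ)) ((c * g x) ξ)
  have t2 := norm_sub_le_norm_sub_add_norm_sub
    (Ex (Wav ν n N) (fun u => (star u * (w * y * g (u * x))) ξ))
    (Ex (W ν n) (fun s => Ex (Wav ν 0 N) fun u =>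
        (star u * (star s * (w * y) * s * g (u * x))) ξ)) ((c * g x) ξ)
  have t3 := norm_sub_le_norm_sub_add_norm_sub
    (Ex (W ν n) (fun s => Ex (Wav ν 0 N) fun u =>
        (star u * (star s * (w * y) * s * g (u * x))) ξ))
    (Ex (Wav ν 0 N) (fun u => (c * (star u * g (u * x))) ξ)) ((c * g x) ξ)
  linarith

end Crest.Agent.R121.H7
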